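import Mathlib

/-!
Orthonormal completion of an injective tall matrix and the induced change of variables.
-/

noncomputable section

open MeasureTheory Matrix
open scoped ENNReal

namespace Vale.Agent.P254.FewFacets

lemma exists_completion {N m : ℕ} (B : Matrix (Fin N) (Fin m) ℝ)
    (hB : Function.Injective B.mulVec) :
    m ≤ N ∧ ∃ C : Matrix (Fin N) (Fin (N - m)) ℝ, Bᵀ * C = 0 ∧ Cᵀ * C = 1 := by
  set L : (Fin m → ℝ) →ₗ[ℝ] EuclideanSpace ℝ (Fin N) :=
    (WithLp.linearEquiv 2 ℝ (Fin N → ℝ)).symm.toLinearMap ∘ₗ B.mulVecLin with hL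
  have hLi : Function.Injective L := by
    rw [hL, LinearMap.coe_comp]
    exact (LinearEquiv.injective _).comp hB
  have hK : Module.finrank ℝ (LinearMap.range L) = m := by
    rw [LinearMap.finrank_range_of_inj hLi, Module.finrank_fin_fun]
  have hsum := Submodule.finrank_add_finrank_orthogonal (LinearMap.range L)
  rw [hK, finrank_euclideanSpace_fin] at hsum
  have hk : Module.finrank ℝ (LinearMap.range L)ᗮ = N - m := by omega
  set b := (stdOrthonormalBasis ℝ (LinearMap.range L)ᗮ).reindex (finCongr hk) with hb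
  refine ⟨by omega, Matrix.of fun i j => (b j : EuclideanSpace ℝ (Fin N)) i, ?_, ?_⟩
  · ext l j
    have h := Submodule.inner_right_of_mem_orthogonal
      (LinearMap.mem_range_self L (Pi.single l 1)) (b j).2
    rw [PiLp.inner_apply] at h
    rw [Matrix.mul_apply, Matrix.zero_apply, ← h]
    refine Finset.sum_congr rfl fun i _ => ?_
    simp only [Matrix.transpose_apply, Matrix.of_apply, hL, LinearMap.coe_comp,
      LinearEquiv.coe_coe, Function.comp_apply, Matrix.mulVecLin_apply, Matrix.mulVec_single_one,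
      RCLike.inner_apply, conj_trivial, Matrix.col_apply]
    exact mul_comm _ _
  · ext j l
    have h := b.inner_eq_ite j l
    rw [Submodule.coe_inner, PiLp.inner_apply] at h
    rw [Matrix.mul_apply, Matrix.one_apply, ← h]
    refine Finset.sum_congr rfl fun i _ => ?_
    simp only [Matrix.transpose_apply, Matrix.of_apply, RCLike.inner_apply, conj_trivial]
    exact mul_comm _ _

/-- The map joining the columns of two matrices. -/
def joinFn {N m k : ℕ} (B : Matrix (Fin N) (Fin m) ℝ) (C : Matrix (Fin N) (Fin k) ℝ)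
    (v : (Fin m → ℝ) × (Fin k → ℝ)) : Fin N → ℝ :=
  B *ᵥ v.1 + C *ᵥ v.2

lemma continuous_joinFn {N m k : ℕ} (B : Matrix (Fin N) (Fin m) ℝ)
    (C : Matrix (Fin N) (Fin k) ℝ) : Continuous (joinFn B C) := by
  unfold joinFn
  fun_prop

lemma map_joinFn {N m k : ℕ} (hN : m + k = N) (B : Matrix (Fin N) (Fin m) ℝ)
    (C : Matrix (Fin N) (Fin k) ℝ) (hB : Function.Injective B.mulVec) (hBC : Bᵀ * C = 0)
    (hCC : Cᵀ * C = 1) :
    MeasurableEmbedding (joinFn B C) ∧
      Measure.map (joinFn B C) volume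
        = ENNReal.ofReal (Real.sqrt (Bᵀ * B).det)⁻¹ • (volume : Measure (Fin N → ℝ)) := by
  classical
  set σ : Fin m ⊕ Fin k ≃ Fin N := finSumFinEquiv.trans (finCongr hN) with hσ
  set Φ : Matrix (Fin N) (Fin N) ℝ := (Matrix.fromCols B C).submatrix id σ.symm with hΦ
  have hR : (Bᵀ * B).PosDef := by
    simpa using Matrix.PosDef.conjTranspose_mul_self B hB
  have hdet : Φ.det ^ 2 = (Bᵀ * B).det := by
    have h1 : Φᵀ * Φ = ((Matrix.fromCols B C)ᵀ * Matrix.fromCols B C).submatrix σ.symm σ.symm := by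
      rw [hΦ, Matrix.transpose_submatrix]
      exact (Matrix.submatrix_mul _ _ _ id _ Function.bijective_id).symm
    have hCB : Cᵀ * B = 0 := by
      have := congrArg Matrix.transpose hBC
      simpa using this
    calc Φ.det ^ 2 = (Φᵀ * Φ).det := by rw [Matrix.det_mul, Matrix.det_transpose, sq]
      _ = _ := by
          rw [h1, Matrix.det_submatrix_equiv_self, Matrix.transpose_fromCols,
            Matrix.fromRows_mul_fromCols, hBC, hCB, hCC, Matrix.det_fromBlocks_zero₂₁,
            Matrix.det_one, mul_one]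
  have hne : Φ.det ≠ 0 := fun h => hR.det_pos.ne' (by rw [← hdet, h]; simp)
  have habs : |Φ.det| = Real.sqrt (Bᵀ * B).det := by rw [← hdet, Real.sqrt_sq_eq_abs]
  set u : (Fin m ⊕ Fin k → ℝ) ≃ᵐ (Fin N → ℝ) := MeasurableEquiv.piCongrLeft (fun _ => ℝ) σ with hu
  set w : (Fin m ⊕ Fin k → ℝ) ≃ᵐ (Fin m → ℝ) × (Fin k → ℝ) :=
    MeasurableEquiv.sumPiEquivProdPi (fun _ => ℝ) with hw
  have hup : MeasurePreserving u volume volume := volume_measurePreserving_piCongrLeft _ _
  have hwp : MeasurePreserving w volume volume := volume_measurePreserving_sumPiEquivProdPi _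
  have hfun : joinFn B C = (fun x => Φ *ᵥ x) ∘ (u ∘ w.symm) := by
    funext v i
    have hx : ∀ s, u (w.symm v) (σ s) = Sum.elim v.1 v.2 s := by
      intro s
      rw [hu, MeasurableEquiv.piCongrLeft_apply_apply]
      cases s <;> rfl
    simp only [Function.comp_apply, joinFn, Matrix.mulVec, dotProduct, Pi.add_apply, hΦ,
      Matrix.submatrix_apply, id]
    rw [← σ.sum_comp (g := fun j => Matrix.fromCols B C i (σ.symm j) * u (w.symm v) j),
      Fintype.sum_sum_type]
    simp [hx]
  have hU : IsUnit Φ := (Matrix.isUnit_iff_isUnit_det _).2 hne.isUnit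
  have hemb : MeasurableEmbedding fun x => Φ *ᵥ x :=
    (by fun_prop : Continuous fun x => Φ *ᵥ x).measurableEmbedding
      (Matrix.mulVec_injective_iff_isUnit.2 hU)
  refine ⟨?_, ?_⟩
  · rw [hfun]
    exact hemb.comp (u.measurableEmbedding.comp w.symm.measurableEmbedding)
  · rw [hfun, ← Measure.map_map hemb.measurable (u.measurable.comp w.symm.measurable),
      (hup.comp (hwp.symm w)).map_eq]
    have h := Real.map_matrix_volume_pi_eq_smul_volume_pi hne
    rw [show (fun x => Φ *ᵥ x) = ⇑(Matrix.toLin' Φ) from funext fun x => (Matrix.toLin'_apply Φ x).symm,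
      h, abs_inv, habs]

end Vale.Agent.P254.FewFacets
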