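import Vale.Agent.P245.PL

/-!
Integrals over the cone above a polytope and the second moment bound for its facet functions.
-/

noncomputable section

open MeasureTheory Set
open scoped ENNReal Nat

namespace Vale.Agent.P254.FewFacets

variable {n N : ℕ}

/-- The affine function of a facet. -/
def facetFn (A : Fin N → Fin n → ℝ) (p : Fin N → ℝ) (i : Fin N) (y : Fin n → ℝ) : ℝ :=
  p i + ∑ j, A i j * y j

/-- The open polytope of the normalised data. -/
def openBody (A : Fin N → Fin n → ℝ) (p : Fin N → ℝ) : Set (Fin n → ℝ) :=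
  {y | ∀ i, 0 < facetFn A p i y}

/-- The linear map of the cone over the polytope. -/
def coneFn (A : Fin N → Fin n → ℝ) (p : Fin N → ℝ) (i : Fin N) (z : Fin (n + 1) → ℝ) : ℝ :=
  p i * z 0 + ∑ j : Fin n, A i j * z j.succ

/-- The open cone over the polytope. -/
def openCone (A : Fin N → Fin n → ℝ) (p : Fin N → ℝ) : Set (Fin (n + 1) → ℝ) :=
  {z | ∀ i, 0 < coneFn A p i z}

variable {A : Fin N → Fin n → ℝ} {p : Fin N → ℝ}

lemma continuous_facetFn (i : Fin N) : Continuous (facetFn A p i) := by
  unfold facetFn; fun_prop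

lemma continuous_coneFn (i : Fin N) : Continuous (coneFn A p i) := by
  unfold coneFn; fun_prop

lemma isOpen_openBody : IsOpen (openBody A p) := by
  simp only [openBody, ofPred_forall]
  exact isOpen_iInter_of_finite fun i => isOpen_lt continuous_const (continuous_facetFn i)

lemma isOpen_openCone : IsOpen (openCone A p) := by
  simp only [openCone, ofPred_forall]
  exact isOpen_iInter_of_finite fun i => isOpen_lt continuous_const (continuous_coneFn i)

lemma sum_coneFn (hA : ∀ j, ∑ i, A i j = 0) (hp : ∑ i, p i = 1) (z : Fin (n + 1) → ℝ) :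
    ∑ i, coneFn A p i z = z 0 := by
  simp only [coneFn, Finset.sum_add_distrib, ← Finset.sum_mul, hp, one_mul]
  rw [Finset.sum_comm]
  simp [← Finset.sum_mul, hA]

lemma coneFn_cons {t : ℝ} (ht : 0 < t) (x : Fin n → ℝ) (i : Fin N) :
    coneFn A p i (Fin.cons t x) = t * facetFn A p i (t⁻¹ • x) := by
  simp only [coneFn, facetFn, Fin.cons_zero, Fin.cons_succ, Pi.smul_apply, smul_eq_mul, mul_add,
    Finset.mul_sum]
  congr 1
  · ring
  · exact Finset.sum_congr rfl fun j _ => by field_simp

lemma openCone_zero_pos (hA : ∀ j, ∑ i, A i j = 0) (hp : ∑ i, p i = 1) {z : Fin (n + 1) → ℝ}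
    (hz : z ∈ openCone A p) : 0 < z 0 := by
  have hN : Nonempty (Fin N) := by
    by_contra h
    rw [not_nonempty_iff] at h
    simp at hp
  rw [← sum_coneFn hA hp z]
  exact Finset.sum_pos (fun i _ => hz i) Finset.univ_nonempty

lemma mem_openCone_cons (hA : ∀ j, ∑ i, A i j = 0) (hp : ∑ i, p i = 1) (t : ℝ) (x : Fin n → ℝ) :
    Fin.cons t x ∈ openCone A p ↔ 0 < t ∧ t⁻¹ • x ∈ openBody A p := by
  constructor
  · intro h
    have ht : 0 < t := by simpa using openCone_zero_pos hA hp h
    refine ⟨ht, fun i => ?_⟩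
    have := h i
    rw [coneFn_cons ht] at this
    exact (mul_pos_iff_of_pos_left ht).1 this
  · rintro ⟨ht, h⟩ i
    rw [coneFn_cons ht]
    exact mul_pos ht (h i)

lemma lintegral_exp_pow (k : ℕ) :
    ∫⁻ t in Ioi (0 : ℝ), ENNReal.ofReal (Real.exp (-t) * t ^ k) = ENNReal.ofReal (k ! : ℝ) := by
  have he : EqOn (fun t : ℝ => Real.exp (-t) * t ^ (((k : ℝ) + 1) - 1))
      (fun t : ℝ => Real.exp (-t) * t ^ k) (Ioi 0) := fun t _ => by
    simp
  have hint : IntegrableOn (fun t : ℝ => Real.exp (-t) * t ^ k) (Ioi 0) :=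
    (Real.GammaIntegral_convergent (s := (k : ℝ) + 1) (by positivity)).congr_fun he measurableSet_Ioi
  rw [← ofReal_integral_eq_lintegral_ofReal hint]
  · rw [← Real.Gamma_nat_eq_factorial, Real.Gamma_eq_integral (by positivity),
      setIntegral_congr_fun measurableSet_Ioi he]
  · exact (ae_restrict_mem measurableSet_Ioi).mono fun t ht =>
      mul_nonneg (Real.exp_pos _).le (pow_nonneg (le_of_lt ht) k)

lemma lintegral_comp_inv_smul (F : (Fin n → ℝ) → ℝ≥0∞) (hF : Measurable F) {t : ℝ} (ht : 0 < t) :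
    ∫⁻ x, F (t⁻¹ • x) = ENNReal.ofReal (t ^ n) * ∫⁻ y, F y := by
  have hm : Measurable fun x : Fin n → ℝ => t⁻¹ • x := (continuous_const_smul _).measurable
  rw [← lintegral_map hF hm, Measure.map_addHaar_smul volume (inv_ne_zero ht.ne'),
    lintegral_smul_measure]
  simp [inv_pow, abs_of_pos (pow_pos ht n)]

lemma lintegral_openCone (hA : ∀ j, ∑ i, A i j = 0) (hp : ∑ i, p i = 1) (q : ℕ)
    {h : (Fin n → ℝ) → ℝ≥0∞} (hh : Measurable h) :
    ∫⁻ z in openCone A p, ENNReal.ofReal (Real.exp (-z 0) * z 0 ^ q) * h ((z 0)⁻¹ • Fin.tail z)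
      = ENNReal.ofReal ((n + q) ! : ℝ) * ∫⁻ y in openBody A p, h y := by
  set e := MeasurableEquiv.piFinSuccAbove (fun _ : Fin (n + 1) => ℝ) 0 with he
  have hep : MeasurePreserving e volume volume :=
    volume_preserving_piFinSuccAbove (fun _ : Fin (n + 1) => ℝ) 0
  have hsymm : ∀ (s : ℝ) (x : Fin n → ℝ), e.symm (s, x) = Fin.cons s x := by
    intro s x; simp [he, Fin.consEquiv]
  have hC := (isOpen_openCone (A := A) (p := p)).measurableSet
  have hQ := (isOpen_openBody (A := A) (p := p)).measurableSet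
  have hmF : Measurable ((openCone A p).indicator fun z =>
      ENNReal.ofReal (Real.exp (-z 0) * z 0 ^ q) * h ((z 0)⁻¹ • Fin.tail z)) := by
    refine Measurable.indicator (Measurable.mul (by fun_prop) (hh.comp ?_)) hC
    unfold Fin.tail
    fun_prop
  rw [← lintegral_indicator hC, ← lintegral_indicator hQ, ← (hep.symm e).lintegral_comp hmF,
    Measure.volume_eq_prod, lintegral_prod _ ?_]
  swap
  · exact (hmF.comp e.symm.measurable).aemeasurable
  simp only [hsymm]
  have hin : ∀ t : ℝ, (∫⁻ x, (openCone A p).indicator (fun z =>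
      ENNReal.ofReal (Real.exp (-z 0) * z 0 ^ q) * h ((z 0)⁻¹ • Fin.tail z)) (Fin.cons t x))
      = (Ioi (0 : ℝ)).indicator (fun t => ENNReal.ofReal (Real.exp (-t) * t ^ (n + q))
          * ∫⁻ y, (openBody A p).indicator h y) t := by
    intro t
    by_cases ht : 0 < t
    · rw [indicator_of_mem (mem_Ioi.2 ht)]
      have : ∀ x : Fin n → ℝ, (openCone A p).indicator (fun z =>
          ENNReal.ofReal (Real.exp (-z 0) * z 0 ^ q) * h ((z 0)⁻¹ • Fin.tail z)) (Fin.cons t x)
          = ENNReal.ofReal (Real.exp (-t) * t ^ q) * (openBody A p).indicator h (t⁻¹ • x) := by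
        intro x
        by_cases hx : t⁻¹ • x ∈ openBody A p
        · rw [indicator_of_mem ((mem_openCone_cons hA hp t x).2 ⟨ht, hx⟩), indicator_of_mem hx]
          simp
        · rw [indicator_of_notMem fun h' => hx ((mem_openCone_cons hA hp t x).1 h').2,
            indicator_of_notMem hx, mul_zero]
      simp only [this]
      rw [lintegral_const_mul' _ _ ENNReal.ofReal_ne_top,
        lintegral_comp_inv_smul _ (hh.indicator hQ) ht, ← mul_assoc,
        ← ENNReal.ofReal_mul (by positivity)]
      congr 2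
      ring
    · rw [indicator_of_notMem (by simpa using ht)]
      refine (lintegral_congr fun x => ?_).trans lintegral_zero
      exact indicator_of_notMem (fun h' => ht ((mem_openCone_cons hA hp t x).1 h').1) _
  simp only [hin]
  rw [lintegral_indicator measurableSet_Ioi, lintegral_mul_const _ (by fun_prop),
    lintegral_exp_pow]

end Vale.Agent.P254.FewFacets
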