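import Mathlib

/-!
A determinant bound from diagonal bounds on a covariance matrix seen through a tall matrix.
-/

noncomputable section

open Matrix Finset
open scoped MatrixOrder

namespace Vale.Agent.P254.FewFacets

lemma amgm_pow {m : ℕ} (x : Fin m → ℝ) (hx : ∀ i, 0 ≤ x i) :
    ∏ i, x i ≤ ((∑ i, x i) / m) ^ m := by
  rcases Nat.eq_zero_or_pos m with rfl | hm
  · simp
  have hm' : (m : ℝ) ≠ 0 := by positivity
  have h := Real.geom_mean_le_arith_mean_weighted Finset.univ (fun _ => (1 : ℝ) / m) x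
    (fun i _ => by positivity) (by simp; field_simp) (fun i _ => hx i)
  have h0 : 0 ≤ ∏ i, x i ^ ((1 : ℝ) / m) :=
    Finset.prod_nonneg fun i _ => Real.rpow_nonneg (hx i) _
  calc ∏ i, x i = (∏ i, x i ^ ((1 : ℝ) / m)) ^ m := by
        rw [← Finset.prod_pow]
        refine Finset.prod_congr rfl fun i _ => ?_
        rw [← Real.rpow_natCast, ← Real.rpow_mul (hx i), one_div_mul_cancel hm', Real.rpow_one]
    _ ≤ (∑ i, (1 : ℝ) / m * x i) ^ m := pow_le_pow_left₀ h0 h m
    _ = ((∑ i, x i) / m) ^ m := by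
        rw [← Finset.mul_sum]
        ring

lemma psd_gram {m : ℕ} {A : Matrix (Fin m) (Fin m) ℝ} (hA : A.PosSemidef) :
    ∃ U : Matrix (Fin m) (Fin m) ℝ, A = Uᴴ * U := by
  refine ⟨CFC.sqrt A, ?_⟩
  have h : IsSelfAdjoint (CFC.sqrt A) := (CFC.sqrt_nonneg A).isSelfAdjoint
  rw [← Matrix.star_eq_conjTranspose, h.star_eq, CFC.sqrt_mul_sqrt_self A hA.nonneg]

lemma det_mul_det_le {m : ℕ} {A S : Matrix (Fin m) (Fin m) ℝ} (hA : A.PosSemidef)
    (hS : S.PosSemidef) : A.det * S.det ≤ ((A * S).trace / m) ^ m := by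
  classical
  obtain ⟨U, hU⟩ : ∃ U : Matrix (Fin m) (Fin m) ℝ, A = Uᴴ * U := psd_gram hA
  have hW : (U * S * Uᴴ).PosSemidef := hS.mul_mul_conjTranspose_same U
  have hdet : (U * S * Uᴴ).det = A.det * S.det := by
    rw [hU, det_mul, det_mul, det_mul]; ring
  have htr : (U * S * Uᴴ).trace = (A * S).trace := by
    rw [hU, Matrix.trace_mul_comm (U * S) Uᴴ, ← Matrix.mul_assoc]
  rw [← hdet, ← htr, hW.isHermitian.det_eq_prod_eigenvalues, hW.isHermitian.trace_eq_sum_eigenvalues]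
  simpa using amgm_pow _ hW.eigenvalues_nonneg

variable {N m : ℕ}

lemma trace_diag_conj (E : Matrix (Fin N) (Fin m) ℝ) (d : Fin N → ℝ)
    (S : Matrix (Fin m) (Fin m) ℝ) :
    (Eᵀ * Matrix.diagonal d * E * S).trace = ∑ i, d i * (E * S * Eᵀ) i i := by
  rw [Matrix.mul_assoc, Matrix.trace_mul_comm, ← Matrix.mul_assoc]
  simp [Matrix.trace, Matrix.diag]
  refine Finset.sum_congr rfl fun i _ => ?_
  ring

theorem det_gram_mul_det_le (hm : 0 < m) (B : Matrix (Fin N) (Fin m) ℝ)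
    (hB : Function.Injective B.mulVec) (D : Fin N → ℝ) (hD : ∀ i, 0 < D i)
    (hsum : ∑ i, D i = m) {S : Matrix (Fin m) (Fin m) ℝ} (hS : S.PosSemidef)
    (hvar : ∀ i, (B * S * Bᵀ) i i ≤ D i ^ 2) :
    (Bᵀ * B).det * S.det ≤ 1 := by
  classical
  have hm' : (0 : ℝ) < m := by exact_mod_cast hm
  set R := Bᵀ * B with hRdef
  set Δ := Matrix.diagonal D with hΔ
  set Δi := Matrix.diagonal (fun i => (D i)⁻¹) with hΔi
  set M := Bᵀ * Δ * B with hMdef
  have hR : R.PosDef := by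
    simpa [hRdef] using Matrix.PosDef.conjTranspose_mul_self B hB
  have hM : M.PosDef := by
    simpa [hMdef] using (Matrix.PosDef.diagonal hD).conjTranspose_mul_mul_same hB
  have hRt : Rᵀ = R := by simp [hRdef]
  have hMt : Mᵀ = M := by simp [hMdef, hΔ, Matrix.mul_assoc]
  have hMit : (M⁻¹)ᵀ = M⁻¹ := by rw [Matrix.transpose_nonsing_inv, hMt]
  have hRit : (R⁻¹)ᵀ = R⁻¹ := by rw [Matrix.transpose_nonsing_inv, hRt]
  set T := R * M⁻¹ * R with hTdef
  have hT : T.PosSemidef := by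
    have := hM.inv.posSemidef.mul_mul_conjTranspose_same R
    simpa [hTdef, hRt] using this
  have hiu : ∀ {X : Matrix (Fin m) (Fin m) ℝ}, X.PosDef → IsUnit X.det := fun hX =>
    hX.det_pos.ne'.isUnit
  have hDiD : Δi * Δ = 1 := by
    simp [hΔi, hΔ, fun i => inv_mul_cancel₀ (hD i).ne']
  have hDDi : Δ * Δi = 1 := by
    simp [hΔi, hΔ, fun i => mul_inv_cancel₀ (hD i).ne']
  set E := B - Δ * B * M⁻¹ * R with hEdef
  have hE : Eᵀ * Δi * E = Bᵀ * Δi * B - T := by
    have hEt : Eᵀ = Bᵀ - R * M⁻¹ * Bᵀ * Δ := by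
      simp [hEdef, hRt, hMit, hΔ, Matrix.mul_assoc]
    rw [hEt, hEdef, Matrix.sub_mul, Matrix.sub_mul, Matrix.mul_sub, Matrix.mul_sub]
    have h1 : Bᵀ * Δi * (Δ * B * M⁻¹ * R) = T := by
      rw [hTdef, hRdef]
      calc Bᵀ * Δi * (Δ * B * M⁻¹ * R) = Bᵀ * (Δi * Δ) * B * M⁻¹ * R := by
            simp only [Matrix.mul_assoc]
        _ = _ := by rw [hDiD, Matrix.mul_one, hRdef]
    have h2 : R * M⁻¹ * Bᵀ * Δ * Δi * B = T := by
      rw [hTdef]
      calc R * M⁻¹ * Bᵀ * Δ * Δi * B = R * M⁻¹ * (Bᵀ * (Δ * Δi) * B) := by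
            simp only [Matrix.mul_assoc]
        _ = _ := by rw [hDDi, Matrix.mul_one, hRdef]
    have h3 : R * M⁻¹ * Bᵀ * Δ * Δi * (Δ * B * M⁻¹ * R) = T := by
      rw [hTdef]
      calc R * M⁻¹ * Bᵀ * Δ * Δi * (Δ * B * M⁻¹ * R)
            = R * M⁻¹ * (Bᵀ * (Δ * Δi) * Δ * B) * (M⁻¹ * R) := by
            simp only [Matrix.mul_assoc]
        _ = _ := by
            rw [hDDi, Matrix.mul_one, ← hMdef, Matrix.nonsing_inv_mul_cancel_right M R (hiu hM)]
            simp only [Matrix.mul_assoc]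
    rw [h1, h2, h3]
    abel
  have htrace : (T * S).trace ≤ m := by
    have hnn : 0 ≤ (Eᵀ * Δi * E * S).trace := by
      rw [hΔi, trace_diag_conj]
      refine Finset.sum_nonneg fun i _ => mul_nonneg (inv_pos.2 (hD i)).le ?_
      have := (hS.mul_mul_conjTranspose_same E).diag_nonneg (i := i)
      simpa using this
    rw [hE, Matrix.sub_mul, Matrix.trace_sub, hΔi, trace_diag_conj] at hnn
    have hle : ∑ i, (D i)⁻¹ * (B * S * Bᵀ) i i ≤ m := by
      rw [← hsum]
      refine Finset.sum_le_sum fun i _ => ?_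
      rw [inv_mul_le_iff₀ (hD i), ← sq]
      exact hvar i
    linarith
  have hTS : T.det * S.det ≤ 1 := by
    refine (det_mul_det_le hT hS).trans ?_
    refine pow_le_one₀ ?_ ?_
    · refine div_nonneg ?_ hm'.le
      obtain ⟨U, hU⟩ : ∃ U : Matrix (Fin m) (Fin m) ℝ, T = Uᴴ * U := psd_gram hT
      rw [hU, Matrix.mul_assoc, Matrix.trace_mul_comm]
      exact (hS.mul_mul_conjTranspose_same U).trace_nonneg
    · rw [div_le_one hm']
      exact htrace
  set H := B * R⁻¹ * Bᵀ with hHdef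
  have hHH : H * H = H := by
    rw [hHdef]
    calc B * R⁻¹ * Bᵀ * (B * R⁻¹ * Bᵀ) = B * (R⁻¹ * R) * (R⁻¹ * Bᵀ) := by
          rw [hRdef]; simp only [Matrix.mul_assoc]
      _ = _ := by rw [Matrix.nonsing_inv_mul _ (hiu hR), Matrix.mul_one, Matrix.mul_assoc]
  have hHt : Hᵀ = H := by simp [hHdef, hRit, Matrix.mul_assoc]
  have hH1 : ∀ i, H i i ≤ 1 := by
    intro i
    have h := congrFun (congrFun hHH i) i
    rw [Matrix.mul_apply] at h
    have hs : ∀ j, H j i = H i j := fun j => by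
      rw [← Matrix.transpose_apply H i j, hHt]
    have : H i i * H i i ≤ H i i := by
      calc H i i * H i i ≤ ∑ j, H i j * H j i :=
            Finset.single_le_sum (f := fun j => H i j * H j i)
              (fun j _ => by rw [hs]; exact mul_self_nonneg _) (Finset.mem_univ i)
        _ = _ := h
    nlinarith
  have hMR : M.det ≤ R.det := by
    have h := det_mul_det_le hR.inv.posSemidef hM.posSemidef
    have htr : (R⁻¹ * M).trace ≤ m := by
      have e : (R⁻¹ * M).trace = ∑ i, D i * H i i := by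
        rw [Matrix.trace_mul_comm, hMdef, hΔ, trace_diag_conj, hHdef]
      rw [e, ← hsum]
      exact Finset.sum_le_sum fun i _ => mul_le_of_le_one_right (hD i).le (hH1 i)
    have htr0 : 0 ≤ (R⁻¹ * M).trace := by
      rw [Matrix.trace_mul_comm, hMdef, hΔ, trace_diag_conj]
      refine Finset.sum_nonneg fun i _ => mul_nonneg (hD i).le ?_
      have := (hR.inv.posSemidef.mul_mul_conjTranspose_same B).diag_nonneg (i := i)
      simpa using this
    have h1 : R⁻¹.det * M.det ≤ 1 :=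
      h.trans (pow_le_one₀ (div_nonneg htr0 hm'.le) ((div_le_one hm').2 htr))
    rw [Matrix.det_nonsing_inv, Ring.inverse_eq_inv', inv_mul_le_iff₀ hR.det_pos, mul_one] at h1
    exact h1
  have hTdet : T.det = R.det ^ 2 / M.det := by
    rw [hTdef, Matrix.det_mul, Matrix.det_mul, Matrix.det_nonsing_inv, Ring.inverse_eq_inv']
    ring
  rw [hTdet, div_mul_eq_mul_div, div_le_one hM.det_pos] at hTS
  have hRp := hR.det_pos
  have hSn : 0 ≤ S.det := hS.det_nonneg
  nlinarith [mul_nonneg hSn hRp.le]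

end Vale.Agent.P254.FewFacets
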