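import Vale.Agent.P254.FewFacets.Section

/-!
Lower bound for the central section of the product exponential density.
-/

noncomputable section

open MeasureTheory Set Matrix
open scoped ENNReal

namespace Vale.Agent.P254.FewFacets

variable {N m : ℕ}

theorem section_lower (B : Matrix (Fin N) (Fin m) ℝ) (hB : Function.Injective B.mulVec)
    {z₁ : Fin m → ℝ} (hone : B *ᵥ z₁ = fun _ => 1) :
    Real.exp (-((N - m : ℕ) : ℝ) / 2 * (Real.log (2 * Real.pi) + 1))
      ≤ Real.sqrt (Bᵀ * B).det * ∫ z, expProd (B *ᵥ z) := by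
  obtain ⟨hmN, C, hBC, hCC⟩ := exists_completion B hB
  obtain ⟨k, hk⟩ : ∃ k, k = N - m := ⟨_, rfl⟩
  subst hk
  set δ := Real.sqrt (Bᵀ * B).det with hδ
  have hδ0 : 0 < δ := Real.sqrt_pos.2 (by
    simpa using (Matrix.PosDef.conjTranspose_mul_self B hB).det_pos)
  obtain ⟨hemb, hmap⟩ := map_joinFn (k := N - m) (by omega) B C hB hBC hCC
  rw [← hδ] at hmap
  set J := joinFn B C with hJ
  have hJc : Continuous J := continuous_joinFn B C
  have hJT : ∀ z s, Cᵀ *ᵥ J (z, s) = s := by
    intro z s
    have hCB : Cᵀ * B = 0 := by simpa using congrArg Matrix.transpose hBC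
    rw [hJ, joinFn, Matrix.mulVec_add, Matrix.mulVec_mulVec, Matrix.mulVec_mulVec, hCB, hCC,
      Matrix.zero_mulVec, Matrix.one_mulVec, zero_add]
  have hC0 : ∀ j, ∑ i, C i j = 0 := by
    intro j
    have h : Cᵀ *ᵥ (B *ᵥ z₁) = 0 := by
      rw [Matrix.mulVec_mulVec, show Cᵀ * B = 0 by simpa using congrArg Matrix.transpose hBC,
        Matrix.zero_mulVec]
    rw [hone] at h
    simpa [Matrix.mulVec, dotProduct] using congrFun h j
  set g : (Fin (N - m) → ℝ) → ℝ := fun s => δ * ∫ z, expProd (J (z, s)) with hg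
  set gL : (Fin (N - m) → ℝ) → ℝ≥0∞ := fun s => ∫⁻ z, ENNReal.ofReal (expProd (J (z, s))) with hgL
  have hcv : ∀ h : (Fin (N - m) → ℝ) → ℝ, Continuous h →
      Integrable (fun y : Fin N → ℝ => expProd y * h (Cᵀ *ᵥ y)) →
      Integrable (fun s => g s * h s) ∧
        ∫ s, g s * h s = ∫ y : Fin N → ℝ, expProd y * h (Cᵀ *ᵥ y) := by
    intro h _ hint
    have hint' : Integrable (fun y : Fin N → ℝ => expProd y * h (Cᵀ *ᵥ y))
        (Measure.map J volume) := by
      rw [hmap]; exact hint.smul_measure ENNReal.ofReal_ne_top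
    have hcomp := hemb.integrable_map_iff.1 hint'
    have hval := hemb.integral_map (μ := volume) (fun y : Fin N → ℝ => expProd y * h (Cᵀ *ᵥ y))
    rw [hmap, integral_smul_measure, ENNReal.toReal_ofReal (inv_nonneg.2 hδ0.le)] at hval
    have e : (fun v : (Fin m → ℝ) × (Fin (N - m) → ℝ) => expProd (J v) * h (Cᵀ *ᵥ J v))
        = fun v => expProd (J v) * h v.2 := by
      funext v; rw [show v = (v.1, v.2) from rfl, hJT]
    simp only [Function.comp_def] at hcomp
    rw [e, Measure.volume_eq_prod] at hcomp hval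
    have e2 : (fun s => g s * h s) = fun s => δ * ∫ z, expProd (J (z, s)) * h s := by
      funext s; rw [hg, integral_mul_const, mul_assoc]
    rw [e2]
    refine ⟨hcomp.integral_prod_right.const_mul δ, ?_⟩
    rw [integral_const_mul, ← integral_prod_symm _ hcomp, ← hval, smul_eq_mul, ← mul_assoc,
      mul_inv_cancel₀ hδ0.ne', one_mul]
  obtain ⟨⟨hI0, hV0⟩, hM1, hM2⟩ := expProd_moments (N := N)
  obtain ⟨hi, hv⟩ := hcv (fun _ => 1) continuous_const (by simpa using hI0)
  simp only [mul_one, hV0] at hi hv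
  have hlin : ∀ j (y : Fin N → ℝ), (Cᵀ *ᵥ y) j = ∑ i, C i j * (y i - 1) := by
    intro j y
    simp [Matrix.mulVec, dotProduct, mul_sub, Finset.sum_sub_distrib, hC0]
  have h1 : ∀ j, Integrable (fun s => g s * s j) ∧ ∫ s, g s * s j = 0 := by
    intro j
    have e : (fun y : Fin N → ℝ => expProd y * (Cᵀ *ᵥ y) j)
        = fun y => ∑ i, C i j * (expProd y * (y i - 1)) := by
      funext y; rw [hlin, Finset.mul_sum]; exact Finset.sum_congr rfl fun i _ => by ring
    obtain ⟨a, b⟩ := hcv (fun s => s j) (continuous_apply j) (by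
      rw [e]; exact integrable_finsetSum _ fun i _ => (hM1 i).1.const_mul _)
    refine ⟨a, b.trans ?_⟩
    rw [e, integral_finsetSum _ fun i _ => (hM1 i).1.const_mul _]
    simp [integral_const_mul, (hM1 _).2]
  have h2 : Integrable (fun s => g s * ∑ j, s j ^ 2) ∧ ∫ s, g s * ∑ j, s j ^ 2 = ((N - m : ℕ) : ℝ) := by
    have e : (fun y : Fin N → ℝ => expProd y * ∑ j, (Cᵀ *ᵥ y) j ^ 2)
        = fun y => ∑ j, ∑ i, ∑ l, C i j * C l j * (expProd y * ((y i - 1) * (y l - 1))) := by
      funext y
      rw [Finset.mul_sum]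
      refine Finset.sum_congr rfl fun j _ => ?_
      rw [hlin, sq, Finset.sum_mul_sum, Finset.mul_sum]
      refine Finset.sum_congr rfl fun i _ => ?_
      rw [Finset.mul_sum]
      exact Finset.sum_congr rfl fun l _ => by ring
    have hi' : ∀ j i, Integrable fun y : Fin N → ℝ =>
        ∑ l, C i j * C l j * (expProd y * ((y i - 1) * (y l - 1))) := fun j i =>
      integrable_finsetSum _ fun l _ => (hM2 i l).1.const_mul _
    obtain ⟨a, b⟩ := hcv (fun s => ∑ j, s j ^ 2) (by fun_prop) (by
      rw [e]; exact integrable_finsetSum _ fun j _ => integrable_finsetSum _ fun i _ => hi' j i)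
    refine ⟨a, b.trans ?_⟩
    rw [e, integral_finsetSum _ fun j _ => integrable_finsetSum _ fun i _ => hi' j i]
    have hcc : ∀ j, ∑ i, C i j * C i j = 1 := fun j => by
      simpa [Matrix.mul_apply] using congrFun (congrFun hCC j) j
    calc ∑ j, ∫ y : Fin N → ℝ, ∑ i, ∑ l, C i j * C l j * (expProd y * ((y i - 1) * (y l - 1)))
        = ∑ _j : Fin (N - m), (1 : ℝ) := Finset.sum_congr rfl fun j _ => by
          refine ((integral_finsetSum _ fun i _ => hi' j i).trans ?_).trans (hcc j)
          refine Finset.sum_congr rfl fun i _ => ?_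
          rw [integral_finsetSum _ fun l _ => (hM2 i l).1.const_mul _]
          simp [integral_const_mul, (hM2 i _).2]
      _ = _ := by simp
  set W := {v : (Fin m → ℝ) × (Fin (N - m) → ℝ) | ∀ i, 0 < J v i} with hW
  have hWo : IsOpen W := by
    simp only [hW, ofPred_forall]
    exact isOpen_iInter_of_finite fun i =>
      isOpen_lt continuous_const ((continuous_apply i).comp hJc)
  set S := Prod.snd '' W with hS
  have hSo : IsOpen S := isOpenMap_snd _ hWo
  have hJlin : ∀ (a b : ℝ) z s z' s',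
      J (a • z + b • z', a • s + b • s') = a • J (z, s) + b • J (z', s') := by
    intro a b z s z' s'
    simp only [hJ, joinFn, Matrix.mulVec_add, Matrix.mulVec_smul, smul_add]
    abel
  have hSc : Convex ℝ S := by
    rintro _ ⟨v, hv, rfl⟩ _ ⟨v', hv', rfl⟩ a b ha hb hab
    refine ⟨(a • v.1 + b • v'.1, a • v.2 + b • v'.2), fun i => ?_, rfl⟩
    rw [hJlin, Pi.add_apply, Pi.smul_apply, Pi.smul_apply, smul_eq_mul, smul_eq_mul]
    rcases ha.eq_or_lt with rfl | ha'
    · rw [zero_add] at hab
      subst hab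
      simpa using hv' i
    · exact add_pos_of_pos_of_nonneg (mul_pos ha' (hv i)) (mul_nonneg hb (hv' i).le)
  have h0S : (0 : Fin (N - m) → ℝ) ∈ S := by
    refine ⟨(z₁, 0), fun i => ?_, rfl⟩
    simp [hJ, joinFn, hone]
  have hmeas2 : Measurable fun v : (Fin m → ℝ) × (Fin (N - m) → ℝ) =>
      ENNReal.ofReal (expProd (J v)) := (measurable_expProd.comp hJc.measurable).ennreal_ofReal
  have hgLm : Measurable gL := hmeas2.lintegral_prod_left'
  have hzslice : ∀ s, Measurable fun z => ENNReal.ofReal (expProd (J (z, s))) := fun s =>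
    hmeas2.comp (measurable_id.prodMk measurable_const)
  have hgT : ∀ s, g s = δ * (gL s).toReal := by
    intro s
    have hm : Measurable fun z => expProd (J (z, s)) :=
      measurable_expProd.comp (hJc.measurable.comp (measurable_id.prodMk measurable_const))
    show δ * ∫ z, expProd (J (z, s)) = _
    rw [integral_eq_lintegral_of_nonneg_ae (f := fun z => expProd (J (z, s)))
      (Filter.Eventually.of_forall fun z => expProd_nonneg _) hm.aestronglyMeasurable]
  have hpl : ∀ {l : ℝ}, 0 < l → l < 1 → ∀ s t,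
      gL s ^ (1 - l) * gL t ^ l ≤ gL ((1 - l) • s + l • t) := by
    intro l h0 h1 s t
    refine Vale.Agent.P245.pl_pi h0 h1 (hzslice s) (hzslice t) (hzslice _) fun x y => ?_
    by_cases hx : ∀ i, 0 < J (x, s) i
    swap
    · simp [expProd_of_not_pos hx, ENNReal.zero_rpow_of_pos (sub_pos.2 h1)]
    by_cases hy : ∀ i, 0 < J (y, t) i
    swap
    · simp [expProd_of_not_pos hy, ENNReal.zero_rpow_of_pos h0]
    have e : (fun i => (1 - l) * x i + l * y i) = (1 - l) • x + l • y := rfl
    have hz : ∀ i, 0 < J ((1 - l) • x + l • y, (1 - l) • s + l • t) i := fun i => by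
      rw [hJlin, Pi.add_apply, Pi.smul_apply, Pi.smul_apply, smul_eq_mul, smul_eq_mul]
      exact add_pos (mul_pos (sub_pos.2 h1) (hx i)) (mul_pos h0 (hy i))
    rw [e, expProd_of_pos hx, expProd_of_pos hy, expProd_of_pos hz,
      ENNReal.ofReal_rpow_of_pos (Real.exp_pos _), ENNReal.ofReal_rpow_of_pos (Real.exp_pos _),
      ← ENNReal.ofReal_mul (by positivity), ← Real.exp_mul, ← Real.exp_mul, ← Real.exp_add]
    refine le_of_eq ?_
    congr 2
    simp only [hJlin, Pi.add_apply, Pi.smul_apply, smul_eq_mul, Finset.sum_add_distrib,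
      ← Finset.mul_sum]
    ring
  have hgLpos : ∀ s ∈ S, 0 < gL s := by
    rintro _ ⟨⟨z, s⟩, hv, rfl⟩
    simp only [hgL]
    rw [lintegral_pos_iff_support (hzslice s)]
    have ho : IsOpen {z' | ∀ i, 0 < J (z', s) i} :=
      hWo.preimage (continuous_id.prodMk continuous_const)
    refine lt_of_lt_of_le (ho.measure_pos volume ⟨z, hv⟩) (measure_mono fun z' hz' => ?_)
    simp only [Function.mem_support, ne_eq, ENNReal.ofReal_eq_zero, not_le]
    rw [expProd_of_pos hz']
    exact Real.exp_pos _
  have hfin : ∀ s ∈ S, gL s ≠ ∞ := by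
    intro s₀ hs₀ htop
    have htot : ∫⁻ s, gL s ≠ ∞ := by
      have hint' : Integrable (expProd (N := N)) (Measure.map J volume) := by
        rw [hmap]; exact hI0.smul_measure ENNReal.ofReal_ne_top
      have h := (hemb.integrable_map_iff.1 hint').hasFiniteIntegral
      simp only [Function.comp_def] at h
      rw [hasFiniteIntegral_iff_ofReal (Filter.Eventually.of_forall fun v => expProd_nonneg _),
        Measure.volume_eq_prod] at h
      rw [lintegral_prod_symm _ hmeas2.aemeasurable] at h
      exact h.ne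
    have hae := ae_lt_top hgLm htot
    set V := {r : Fin (N - m) → ℝ | (2 : ℝ) • r - s₀ ∈ S} with hV
    have hVo : IsOpen V := hSo.preimage (by fun_prop)
    have hVne : V.Nonempty := ⟨s₀, by simpa [hV, two_smul] using hs₀⟩
    have hVtop : ∀ r ∈ V, gL r = ∞ := by
      intro r hr
      have h := hpl (l := 1 / 2) (by norm_num) (by norm_num) s₀ ((2 : ℝ) • r - s₀)
      rw [show (1 - 1 / 2 : ℝ) • s₀ + (1 / 2 : ℝ) • ((2 : ℝ) • r - s₀) = r by
        funext i; simp; ring, htop, ENNReal.top_rpow_of_pos (by norm_num), ENNReal.top_mul] at h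
      · exact top_le_iff.1 h
      · simp [(hgLpos _ hr).ne']
    have h0 : volume V = 0 := measure_mono_null
      (fun r hr => by simp [hVtop r hr]) (ae_iff.1 hae)
    exact (hVo.measure_pos volume hVne).ne' h0
  have hgpos : ∀ s ∈ S, 0 < g s := fun s hs => by
    rw [hgT]; exact mul_pos hδ0 (ENNReal.toReal_pos (hgLpos s hs).ne' (hfin s hs))
  have hgS : ∀ s, 0 < g s → s ∈ S := by
    intro s hs
    by_contra h
    have : ∀ z, expProd (J (z, s)) = 0 := fun z =>
      expProd_of_not_pos fun hz => h ⟨(z, s), hz, rfl⟩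
    simp [hg, this] at hs
  have hlog : ConcaveOn ℝ S fun s => Real.log (g s) := by
    refine ⟨hSc, fun x hx y hy a b ha hb hab => ?_⟩
    rcases ha.eq_or_lt with rfl | ha'
    · rw [zero_add] at hab; subst hab; simp
    rcases hb.eq_or_lt with rfl | hb'
    · rw [add_zero] at hab; subst hab; simp
    obtain rfl : a = 1 - b := by linarith
    have hmem := hSc hx hy ha hb hab
    have h := ENNReal.toReal_mono (hfin _ hmem) (hpl hb' (by linarith) x y)
    rw [ENNReal.toReal_mul, ← ENNReal.toReal_rpow, ← ENNReal.toReal_rpow] at h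
    have px := ENNReal.toReal_pos (hgLpos x hx).ne' (hfin x hx)
    have py := ENNReal.toReal_pos (hgLpos y hy).ne' (hfin y hy)
    have h' := Real.log_le_log (mul_pos (Real.rpow_pos_of_pos px _) (Real.rpow_pos_of_pos py _)) h
    rw [Real.log_mul (Real.rpow_pos_of_pos px _).ne' (Real.rpow_pos_of_pos py _).ne',
      Real.log_rpow px, Real.log_rpow py] at h'
    simp only [hgT, smul_eq_mul]
    rw [Real.log_mul hδ0.ne' px.ne', Real.log_mul hδ0.ne' py.ne',
      Real.log_mul hδ0.ne' (ENNReal.toReal_pos (hgLpos _ hmem).ne' (hfin _ hmem)).ne']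
    linarith
  have hb := center_bound hSo h0S (fun s => mul_nonneg hδ0.le
    (integral_nonneg fun z => expProd_nonneg _)) hgS hlog (hgpos 0 h0S) hi hv
    (fun j => (h1 j).1) (fun j => (h1 j).2) h2.1 h2.2
  simpa [hg, hJ, joinFn] using hb

end Vale.Agent.P254.FewFacets
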