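import Vale.Agent.P254.FewFacets.Moments
import Vale.Agent.P254.FewFacets.Det
import Vale.Agent.P254.FewFacets.SectionBound
import Vale.Agent.P254.Simplex
import Vale.Agent.P254.Affine

/-!
Isotropic constants of polytopes with few facets compared with that of the simplex.
-/

noncomputable section

open MeasureTheory Set Matrix
open scoped ENNReal Nat

namespace Vale.Agent.P254.FewFacets

variable {n N : ℕ}

/-- The matrix of the cone over the normalised polytope. -/
def coneMatrix (A : Fin N → Fin n → ℝ) (p : Fin N → ℝ) : Matrix (Fin N) (Fin (n + 1)) ℝ :=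
  Matrix.of fun i => Fin.cons (p i) (A i)

/-- The raw second moment matrix of the normalised open polytope. -/
def secondMoments (A : Fin N → Fin n → ℝ) (p : Fin N → ℝ) : Matrix (Fin n) (Fin n) ℝ :=
  Matrix.of fun j l => (volume (openBody A p)).toReal⁻¹ * ∫ y in openBody A p, y j * y l

/-- The scaled covariance in cone coordinates. -/
def coneCov (M : Matrix (Fin n) (Fin n) ℝ) : Matrix (Fin (n + 1)) (Fin (n + 1)) ℝ :=
  Matrix.of (Fin.cons (Fin.cons ((n : ℝ) + 1) 0)
    fun j => Fin.cons 0 fun l => ((n : ℝ) + 1) * ((n : ℝ) + 2) * M j l)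

variable {A : Fin N → Fin n → ℝ} {p : Fin N → ℝ}

lemma coneMatrix_mulVec (z : Fin (n + 1) → ℝ) (i : Fin N) :
    (coneMatrix A p *ᵥ z) i = coneFn A p i z := by
  simp [coneMatrix, coneFn, Matrix.mulVec, dotProduct, Fin.sum_univ_succ]

lemma coneCov_det (M : Matrix (Fin n) (Fin n) ℝ) :
    (coneCov M).det = ((n : ℝ) + 1) * (((n : ℝ) + 1) * ((n : ℝ) + 2)) ^ n * M.det := by
  rw [Matrix.det_succ_row_zero, Finset.sum_eq_single 0]
  · have e : (coneCov M).submatrix Fin.succ (Fin.succAbove 0)
        = (((n : ℝ) + 1) * ((n : ℝ) + 2)) • M := by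
      ext j l
      simp [coneCov]
    rw [e, Matrix.det_smul, Fintype.card_fin]
    simp [coneCov]
    ring
  · intro j _ hj
    obtain ⟨l, rfl⟩ := Fin.exists_succ_eq.2 hj
    simp [coneCov]
  · simp

lemma quad_secondMoments (hb : Bornology.IsBounded (openBody A p)) (x : Fin n → ℝ) :
    ∑ j, ∑ l, x j * secondMoments A p j l * x l
      = (volume (openBody A p)).toReal⁻¹ * ∫ y in openBody A p, (∑ j, x j * y j) ^ 2 := by
  have hint : ∀ j l, IntegrableOn (fun y : Fin n → ℝ => x j * x l * (y j * y l)) (openBody A p) :=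
    fun j l => ((by fun_prop : Continuous fun y : Fin n → ℝ => x j * x l * (y j * y l)).continuousOn
      |>.integrableOn_compact hb.isCompact_closure).mono_set subset_closure
  have e : ∀ y : Fin n → ℝ, (∑ j, x j * y j) ^ 2 = ∑ j, ∑ l, x j * x l * (y j * y l) := fun y => by
    rw [sq, Finset.sum_mul_sum]
    exact Finset.sum_congr rfl fun j _ => Finset.sum_congr rfl fun l _ => by ring
  simp only [e]
  rw [integral_finsetSum _ fun j _ => integrable_finsetSum _ fun l _ => hint j l, Finset.mul_sum]
  refine Finset.sum_congr rfl fun j _ => ?_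
  rw [integral_finsetSum _ fun l _ => hint j l, Finset.mul_sum]
  refine Finset.sum_congr rfl fun l _ => ?_
  rw [integral_const_mul]
  simp [secondMoments]
  ring

lemma coneCov_quad (M : Matrix (Fin n) (Fin n) ℝ) (z : Fin (n + 1) → ℝ) :
    ∑ j, ∑ l, z j * coneCov M j l * z l
      = ((n : ℝ) + 1) * z 0 ^ 2
        + ((n : ℝ) + 1) * ((n : ℝ) + 2) * ∑ j : Fin n, ∑ l : Fin n, z j.succ * M j l * z l.succ := by
  simp only [Fin.sum_univ_succ, coneCov, Matrix.of_apply, Fin.cons_zero, Fin.cons_succ,
    Pi.zero_apply, mul_zero, zero_mul, Finset.sum_const_zero, add_zero, zero_add, Finset.mul_sum]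
  congr 1
  · ring
  · exact Finset.sum_congr rfl fun j _ => Finset.sum_congr rfl fun l _ => by ring

lemma coneCov_posSemidef (hb : Bornology.IsBounded (openBody A p)) :
    (coneCov (secondMoments A p)).PosSemidef := by
  refine Matrix.PosSemidef.of_dotProduct_mulVec_nonneg ?_ fun z => ?_
  · ext j l
    refine Fin.cases ?_ (fun j' => ?_) j <;> refine Fin.cases ?_ (fun l' => ?_) l <;>
      simp [coneCov, secondMoments, mul_comm]
  · have e : star z ⬝ᵥ (coneCov (secondMoments A p) *ᵥ z)
        = ∑ j, ∑ l, z j * coneCov (secondMoments A p) j l * z l := by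
      simp [dotProduct, Matrix.mulVec, Finset.mul_sum, mul_assoc]
    rw [e, coneCov_quad, quad_secondMoments hb]
    have : 0 ≤ ∫ y in openBody A p, (∑ j : Fin n, z j.succ * y j) ^ 2 :=
      setIntegral_nonneg isOpen_openBody.measurableSet fun y _ => sq_nonneg _
    positivity

/-- The bound in normalised coordinates. -/
theorem core_bound (hA : ∀ j, ∑ i, A i j = 0) (hp : ∑ i, p i = 1) (hp0 : ∀ i, 0 < p i)
    (hb : Bornology.IsBounded (openBody A p)) (hcent : ∀ j, ∫ y in openBody A p, y j = 0)
    {z₁ : Fin (n + 1) → ℝ} (hone : ∀ i, coneFn A p i z₁ = 1) :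
    n + 1 ≤ N ∧
    ((n : ℝ) + 1) ^ (n + 1) * ((n : ℝ) + 2) ^ n * (secondMoments A p).det
      ≤ Real.exp (((N - (n + 1) : ℕ) : ℝ) * (Real.log (2 * Real.pi) + 1))
        * ((n ! : ℝ) * (volume (openBody A p)).toReal) ^ 2 := by
  set Q := openBody A p with hQ
  have hQm : MeasurableSet Q := isOpen_openBody.measurableSet
  set B := coneMatrix A p with hB'
  have h0Q : (0 : Fin n → ℝ) ∈ Q := fun i => by simpa [facetFn] using hp0 i
  have hint : ∀ f : (Fin n → ℝ) → ℝ, Continuous f → IntegrableOn f Q := fun f hf =>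
    (hf.continuousOn.integrableOn_compact hb.isCompact_closure).mono_set subset_closure
  set V := (volume Q).toReal with hV
  have hV0 : 0 < V := ENNReal.toReal_pos (isOpen_openBody.measure_pos volume ⟨0, h0Q⟩).ne'
    hb.measure_lt_top.ne
  have hBi : Function.Injective B.mulVec := by
    intro z z' h
    set d := z - z' with hd
    have hd0 : ∀ i, coneFn A p i d = 0 := fun i => by
      rw [← coneMatrix_mulVec, hd, ← hB', Matrix.mulVec_sub, h]; simp
    have ht : d 0 = 0 := by rw [← sum_coneFn hA hp d]; simp [hd0]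
    by_contra hne
    have hx : (fun j : Fin n => d j.succ) ≠ 0 := by
      intro h'
      apply hne
      rw [← sub_eq_zero, ← hd]
      funext j
      exact Fin.cases ht (fun l => congrFun h' l) j
    obtain ⟨R, hR⟩ := hb.subset_closedBall 0
    have hxn : 0 < ‖fun j : Fin n => d j.succ‖ := norm_pos_iff.2 hx
    set t := (|R| + 1) / ‖fun j : Fin n => d j.succ‖ with ht'
    have hmem : t • (fun j : Fin n => d j.succ) ∈ Q := by
      intro i
      have h1 := hd0 i
      simp only [coneFn, ht, mul_zero, zero_add] at h1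
      have e : facetFn A p i (t • fun j : Fin n => d j.succ) = p i := by
        simp only [facetFn, Pi.smul_apply, smul_eq_mul, mul_left_comm _ t, ← Finset.mul_sum, h1,
          mul_zero, add_zero]
      rw [e]; exact hp0 i
    have := hR hmem
    rw [mem_closedBall_zero_iff, norm_smul, Real.norm_eq_abs, ht',
      abs_of_pos (by positivity), div_mul_cancel₀ _ hxn.ne'] at this
    linarith [le_abs_self R]
  have hN : n + 1 ≤ N := (exists_completion B hBi).1
  refine ⟨hN, ?_⟩
  have hm0 : (0 : ℝ) < (n : ℝ) + 1 := by positivity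
  set S := coneCov (secondMoments A p) with hS
  have hvar : ∀ i, (B * S * Bᵀ) i i ≤ (((n : ℝ) + 1) * p i) ^ 2 := by
    intro i
    have e : (B * S * Bᵀ) i i = ∑ j, ∑ l, B i j * S j l * B i l := by
      simp only [Matrix.mul_apply, Matrix.transpose_apply, Finset.sum_mul]
      rw [Finset.sum_comm]
    rw [e, hS, coneCov_quad]
    simp only [hB', coneMatrix, Matrix.of_apply, Fin.cons_zero, Fin.cons_succ]
    rw [quad_secondMoments hb]
    have h := facet_second_moment hA hp hb i
    set X := ∫ y in Q, (∑ j, A i j * y j) ^ 2 with hX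
    have hlin : ∫ y in Q, ∑ j, A i j * y j = 0 := by
      rw [integral_finsetSum _ fun j _ => hint _ (by fun_prop)]
      simp [integral_const_mul, hcent]
    have h1 : ∫ y in Q, facetFn A p i y = p i * V := by
      simp only [facetFn]
      rw [integral_add (hint _ continuous_const) (hint _ (by fun_prop)), hlin, setIntegral_const,
        Measure.real, ← hV, smul_eq_mul]
      ring
    have h2 : ∫ y in Q, facetFn A p i y ^ 2 = p i ^ 2 * V + X := by
      have e : ∀ y, facetFn A p i y ^ 2
          = (p i ^ 2 + 2 * p i * ∑ j, A i j * y j) + (∑ j, A i j * y j) ^ 2 := fun y => by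
        rw [facetFn]; ring
      simp only [e]
      rw [integral_add (hint _ (by fun_prop)) (hint _ (by fun_prop)),
        integral_add (hint _ continuous_const) (hint _ (by fun_prop)), integral_const_mul, hlin,
        setIntegral_const, Measure.real, ← hV, smul_eq_mul, hX]
      ring
    rw [← hQ, ← hV, h1, h2] at h
    have hX' : ((n : ℝ) + 2) * (V⁻¹ * X) ≤ (n : ℝ) * p i ^ 2 := by
      rw [← mul_assoc, mul_comm _ V⁻¹, mul_assoc, inv_mul_le_iff₀ hV0]
      refine le_of_mul_le_mul_left ?_ hV0
      linarith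
    calc ((n : ℝ) + 1) * p i ^ 2 + ((n : ℝ) + 1) * ((n : ℝ) + 2) * (V⁻¹ * X)
        ≤ ((n : ℝ) + 1) * p i ^ 2 + ((n : ℝ) + 1) * ((n : ℝ) * p i ^ 2) := by
          rw [mul_assoc ((n : ℝ) + 1) ((n : ℝ) + 2)]
          gcongr
      _ = _ := by ring
  have hdet := det_gram_mul_det_le (show 0 < n + 1 by omega) B hBi (fun i => ((n : ℝ) + 1) * p i)
    (fun i => mul_pos hm0 (hp0 i)) (by rw [← Finset.mul_sum, hp]; push_cast; ring)
    (coneCov_posSemidef hb) hvar
  have hsec := section_lower B hBi (z₁ := z₁) (funext fun i => by rw [hB', coneMatrix_mulVec, hone])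
  have hI : ∫ z, expProd (B *ᵥ z) = (n ! : ℝ) * V := by
    have hmB : Measurable fun z : Fin (n + 1) → ℝ => expProd (B *ᵥ z) :=
      measurable_expProd.comp (by fun_prop : Continuous fun z => B *ᵥ z).measurable
    rw [integral_eq_lintegral_of_nonneg_ae (Filter.Eventually.of_forall fun z => expProd_nonneg _)
      hmB.aestronglyMeasurable]
    have e : (fun z => ENNReal.ofReal (expProd (B *ᵥ z))) = (openCone A p).indicator
        fun z => ENNReal.ofReal (Real.exp (-z 0) * z 0 ^ 0) * (1 : ℝ≥0∞) := by
      funext z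
      by_cases hz : z ∈ openCone A p
      · rw [indicator_of_mem hz, expProd_of_pos fun i => by
          rw [hB', coneMatrix_mulVec]; exact hz i]
        simp [hB', coneMatrix_mulVec, sum_coneFn hA hp]
      · rw [indicator_of_notMem hz, expProd_of_not_pos, ENNReal.ofReal_zero]
        intro h
        exact hz fun i => by have := h i; rwa [hB', coneMatrix_mulVec] at this
    rw [e, lintegral_indicator isOpen_openCone.measurableSet,
      lintegral_openCone hA hp 0 (h := fun _ => 1) measurable_const, setLIntegral_one,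
      ENNReal.toReal_mul, ENNReal.toReal_ofReal (by positivity), add_zero]
  rw [hI] at hsec
  set K := ((N - (n + 1) : ℕ) : ℝ) with hK
  set c := Real.log (2 * Real.pi) + 1 with hc
  have hRpos : 0 < (Bᵀ * B).det := by
    simpa using (Matrix.PosDef.conjTranspose_mul_self B hBi).det_pos
  have hsq := pow_le_pow_left₀ (Real.exp_pos _).le hsec 2
  rw [mul_pow, Real.sq_sqrt hRpos.le, ← Real.exp_nat_mul,
    show ((2 : ℕ) : ℝ) * (-K / 2 * c) = -(K * c) by push_cast; ring] at hsq
  rw [coneCov_det] at hdet
  have hcomb : ((n : ℝ) + 1) ^ (n + 1) * ((n : ℝ) + 2) ^ n * (secondMoments A p).det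
      = ((n : ℝ) + 1) * (((n : ℝ) + 1) * ((n : ℝ) + 2)) ^ n * (secondMoments A p).det := by
    rw [mul_pow, pow_succ]; ring
  rw [hcomb]
  set D := ((n : ℝ) + 1) * (((n : ℝ) + 1) * ((n : ℝ) + 2)) ^ n * (secondMoments A p).det
  rcases le_or_gt D 0 with hD | hD
  · exact hD.trans (mul_nonneg (Real.exp_pos _).le (sq_nonneg _))
  have h3 : D * Real.exp (-(K * c)) ≤ ((n ! : ℝ) * V) ^ 2 :=
    calc D * Real.exp (-(K * c)) ≤ D * ((Bᵀ * B).det * ((n ! : ℝ) * V) ^ 2) := by gcongr
      _ = ((Bᵀ * B).det * D) * ((n ! : ℝ) * V) ^ 2 := by ring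
      _ ≤ 1 * ((n ! : ℝ) * V) ^ 2 := by gcongr
      _ = _ := one_mul _
  calc D = Real.exp (K * c) * (D * Real.exp (-(K * c))) := by
        rw [mul_left_comm, ← Real.exp_add, add_neg_cancel, Real.exp_zero, mul_one]
    _ ≤ _ := by gcongr

lemma exists_balanced (a : Fin N → Fin n → ℝ) (β : Fin N → ℝ)
    (hb : Bornology.IsBounded {x : Fin n → ℝ | ∀ i, 0 ≤ (∑ j, a i j * x j) + β i})
    (hne : ∃ x : Fin n → ℝ, ∀ i, 0 < (∑ j, a i j * x j) + β i) :
    ∃ x₀ : Fin n → ℝ, (∀ i, 0 < (∑ j, a i j * x₀ j) + β i) ∧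
      ∀ j, ∑ i, a i j / ((∑ l, a i l * x₀ l) + β i) = 0 := by
  classical
  obtain ⟨x₁, hx₁⟩ := hne
  set P := {x : Fin n → ℝ | ∀ i, 0 ≤ (∑ j, a i j * x j) + β i} with hP
  have hPc : IsCompact P := by
    refine Metric.isCompact_of_isClosed_isBounded ?_ hb
    simp only [hP, ofPred_forall]
    exact isClosed_iInter fun i => isClosed_le continuous_const (by fun_prop)
  set F := fun x : Fin n → ℝ => ∏ i, ((∑ j, a i j * x j) + β i) with hF
  obtain ⟨x₀, hx₀, hmax⟩ := hPc.exists_isMaxOn ⟨x₁, fun i => (hx₁ i).le⟩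
    (f := F) (by fun_prop : Continuous F).continuousOn
  have hFpos : 0 < F x₀ := lt_of_lt_of_le (Finset.prod_pos fun i _ => hx₁ i)
    (hmax (fun i => (hx₁ i).le : x₁ ∈ P))
  have hpos : ∀ i, 0 < (∑ j, a i j * x₀ j) + β i := fun i =>
    lt_of_le_of_ne (hx₀ i) fun h => hFpos.ne' (Finset.prod_eq_zero (Finset.mem_univ i) h.symm)
  refine ⟨x₀, hpos, fun j => ?_⟩
  set v : Fin n → ℝ := Pi.single j 1 with hv
  have haff : ∀ (i : Fin N) (t : ℝ), (∑ l, a i l * (x₀ + t • v) l) + β i
      = ((∑ l, a i l * x₀ l) + β i) + t * a i j := by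
    intro i t
    simp only [Pi.add_apply, Pi.smul_apply, smul_eq_mul, mul_add, Finset.sum_add_distrib, hv,
      Pi.single_apply, mul_ite, mul_one, mul_zero, Finset.sum_ite_eq', Finset.mem_univ, if_true]
    ring
  have hder : HasDerivAt (fun t : ℝ => F (x₀ + t • v))
      (∑ i, (∏ l ∈ Finset.univ.erase i, (((∑ r, a l r * x₀ r) + β l) + 0 * a l j)) • a i j) 0 := by
    simp only [hF, haff]
    exact HasDerivAt.fun_finsetProd fun i _ => by
      simpa using ((hasDerivAt_id (0 : ℝ)).mul_const (a i j)).const_add ((∑ r, a i r * x₀ r) + β i)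
  have hloc : IsLocalMax (fun t : ℝ => F (x₀ + t • v)) 0 := by
    have hopen : IsOpen {t : ℝ | ∀ i, 0 < ((∑ l, a i l * x₀ l) + β i) + t * a i j} := by
      simp only [ofPred_forall]
      exact isOpen_iInter_of_finite fun i => isOpen_lt continuous_const (by fun_prop)
    refine Filter.mem_of_superset (hopen.mem_nhds fun i => by simpa using hpos i) fun t ht => ?_
    show F (x₀ + t • v) ≤ F (x₀ + (0 : ℝ) • v)
    rw [zero_smul, add_zero]
    exact hmax (fun i => by rw [haff]; exact (ht i).le : x₀ + t • v ∈ P)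
  have h0 := hloc.hasDerivAt_eq_zero hder
  simp only [zero_mul, add_zero, smul_eq_mul] at h0
  have e : ∀ i, (∏ l ∈ Finset.univ.erase i, ((∑ r, a l r * x₀ r) + β l)) * a i j
      = F x₀ * (a i j / ((∑ l, a i l * x₀ l) + β i)) := by
    intro i
    rw [hF]
    dsimp only
    rw [← Finset.mul_prod_erase Finset.univ _ (Finset.mem_univ i)]
    field_simp [(hpos i).ne']
  simp only [e, ← Finset.mul_sum, mul_eq_zero, hFpos.ne', false_or] at h0
  exact h0

lemma simplex_value (n : ℕ) :
    (covMatrix (stdSimplexBody n)).det / (volume (stdSimplexBody n)).toReal ^ 2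
      = (n ! : ℝ) ^ 2 / (((n : ℝ) + 1) ^ (n + 1) * ((n : ℝ) + 2) ^ n) := by
  obtain ⟨hcov, hvol⟩ := covMatrix_stdSimplexBody n
  set α : ℝ := 1 / (((n : ℝ) + 1) * ((n : ℝ) + 2)) with hα
  have : covMatrix (stdSimplexBody n) = α • (1 + Matrix.replicateCol Unit
      (fun _ : Fin n => -(1 / ((n : ℝ) + 1))) * Matrix.replicateRow Unit fun _ : Fin n => (1 : ℝ)) := by
    rw [hcov]
    ext i j
    simp only [Matrix.of_apply, Matrix.smul_apply, Matrix.add_apply, Matrix.mul_apply,
      Matrix.replicateCol_apply, Matrix.replicateRow_apply, Finset.univ_unique,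
      Finset.sum_singleton, smul_eq_mul, Matrix.one_apply]
    rw [hα]
    split <;> field_simp <;> ring
  rw [this, hvol, Matrix.det_smul, Matrix.det_one_add_replicateCol_mul_replicateRow]
  simp [dotProduct, hα, mul_pow, pow_succ]
  field_simp
  ring

theorem few_facets_bound (hn : 0 < n) (a : Fin N → Fin n → ℝ) (β : Fin N → ℝ)
    (hb : Bornology.IsBounded {x : Fin n → ℝ | ∀ i, 0 ≤ (∑ j, a i j * x j) + β i})
    (hne : ∃ x : Fin n → ℝ, ∀ i, 0 < (∑ j, a i j * x j) + β i) :
    n + 1 ≤ N ∧
      isoConst {x : Fin n → ℝ | ∀ i, 0 ≤ (∑ j, a i j * x j) + β i}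
        ≤ (2 * Real.pi * Real.exp 1) ^ (((N : ℝ) - n - 1) / (2 * n))
          * isoConst (stdSimplexBody n) := by
  obtain ⟨x₀, hx₀, hbal⟩ := exists_balanced a β hb hne
  set P := {x : Fin n → ℝ | ∀ i, 0 ≤ (∑ j, a i j * x j) + β i} with hP
  set P' := {x : Fin n → ℝ | ∀ i, 0 < (∑ j, a i j * x j) + β i} with hP'
  have hN0 : 0 < N := by
    by_contra h
    obtain rfl : N = 0 := by omega
    obtain ⟨R, hR⟩ := hb.subset_closedBall 0
    have hall : (fun _ : Fin n => |R| + 1) ∈ P := fun i => i.elim0
    have : Nonempty (Fin n) := ⟨⟨0, hn⟩⟩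
    have := hR hall
    rw [mem_closedBall_zero_iff, pi_norm_const, Real.norm_eq_abs, abs_of_pos (by positivity)] at this
    linarith [le_abs_self R]
  have hPc : IsClosed P := by
    simp only [hP, ofPred_forall]
    exact isClosed_iInter fun i => isClosed_le continuous_const (by fun_prop)
  have hPv : Convex ℝ P := by
    intro x hx y hy s t hs ht hst i
    have e : (∑ j, a i j * (s • x + t • y) j) + β i
        = s * ((∑ j, a i j * x j) + β i) + t * ((∑ j, a i j * y j) + β i) := by
      have hβ : β i = s * β i + t * β i := by rw [← add_mul, hst, one_mul]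
      conv_lhs => rw [hβ]
      simp only [Pi.add_apply, Pi.smul_apply, smul_eq_mul, mul_add, Finset.sum_add_distrib,
        mul_left_comm (a i _), ← Finset.mul_sum]
      ring
    rw [e]
    exact add_nonneg (mul_nonneg hs (hx i)) (mul_nonneg ht (hy i))
  have hsub : P' ⊆ P := fun x hx i => (hx i).le
  have hint' : interior P ⊆ P' := by
    intro x hx i
    refine lt_of_le_of_ne (interior_subset hx i) fun h => ?_
    have hc : Continuous fun e : ℝ => x + e • (x - x₀) := by fun_prop
    obtain ⟨δ, hδ, hball⟩ := Metric.mem_nhds_iff.1 ((isOpen_interior.preimage hc).mem_nhds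
      (show (0 : ℝ) ∈ (fun e : ℝ => x + e • (x - x₀)) ⁻¹' interior P by simpa using hx))
    have := interior_subset (hball (show δ / 2 ∈ Metric.ball 0 δ by
      rw [Metric.mem_ball, dist_zero_right, Real.norm_eq_abs, abs_of_pos (by positivity)]; linarith)) i
    simp only [Pi.add_apply, Pi.smul_apply, Pi.sub_apply, smul_eq_mul, mul_add, mul_sub,
      Finset.sum_add_distrib, mul_left_comm (a i _), Finset.sum_sub_distrib, ← Finset.mul_sum] at this
    nlinarith [hx₀ i, half_pos hδ, mul_pos (half_pos hδ) (hx₀ i)]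
  have hae : P =ᵐ[volume] P' := by
    refine (ae_eq_of_subset_of_measure_ge hsub ?_ ?_ hb.measure_lt_top.ne).symm
    · have h0 : volume (P \ P') = 0 := measure_mono_null
        (show P \ P' ⊆ frontier P by
          intro x hx
          exact ⟨subset_closure hx.1, fun h => hx.2 (hint' h)⟩) (hPv.addHaar_frontier volume)
      calc volume P ≤ volume (P' ∪ P \ P') := measure_mono (by simp)
        _ ≤ volume P' + volume (P \ P') := measure_union_le _ _
        _ = volume P' := by rw [h0, add_zero]
    · exact MeasurableSet.nullMeasurableSet (IsOpen.measurableSet (by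
        simp only [hP', ofPred_forall]
        exact isOpen_iInter_of_finite fun i => isOpen_lt continuous_const (by fun_prop)))
  set c := centroid P with hc
  set w : Fin N → ℝ := fun i => (N : ℝ) * ((∑ l, a i l * x₀ l) + β i) with hw
  have hw0 : ∀ i, 0 < w i := fun i => mul_pos (by exact_mod_cast hN0) (hx₀ i)
  set A : Fin N → Fin n → ℝ := fun i j => a i j / w i with hA'
  set p : Fin N → ℝ := fun i => ((∑ j, a i j * c j) + β i) / w i with hp'
  have hA : ∀ j, ∑ i, A i j = 0 := by
    intro j
    have e : ∀ i, A i j = (N : ℝ)⁻¹ * (a i j / ((∑ l, a i l * x₀ l) + β i)) := fun i => by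
      simp only [hA', hw]; field_simp
    simp only [e, ← Finset.mul_sum, hbal j, mul_zero]
  have hshift : ∀ i (y : Fin n → ℝ),
      facetFn A p i y = ((∑ j, a i j * (y + c) j) + β i) / w i := by
    intro i y
    simp only [facetFn, hA', hp', Pi.add_apply, mul_add, Finset.sum_add_distrib, div_mul_eq_mul_div,
      ← Finset.sum_div]
    ring
  have hQ : openBody A p = (fun y => y + c) ⁻¹' P' := by
    ext y
    simp only [openBody, hP', mem_ofPred_eq, mem_preimage, hshift]
    exact forall_congr' fun i => div_pos_iff_of_pos_right (hw0 i)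
  have hp1 : ∑ i, p i = 1 := by
    have e : ∀ i, p i = (N : ℝ)⁻¹ + ∑ j, A i j * (c j - x₀ j) := by
      intro i
      have h := hshift i (0 : Fin n → ℝ)
      simp only [facetFn, Pi.zero_apply, mul_zero, Finset.sum_const_zero, add_zero, zero_add] at h
      rw [h]
      simp only [hA', hw, mul_sub, Finset.sum_sub_distrib, div_mul_eq_mul_div, ← Finset.sum_div]
      field_simp [(hx₀ i).ne']
      ring
    simp only [e, Finset.sum_add_distrib]
    rw [Finset.sum_comm (f := fun i j => A i j * (c j - x₀ j))]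
    simp [← Finset.sum_mul, hA, hN0.ne']
  have hPo : IsOpen P' := by
    simp only [hP', ofPred_forall]
    exact isOpen_iInter_of_finite fun i => isOpen_lt continuous_const (by fun_prop)
  have hint : ∀ f : (Fin n → ℝ) → ℝ, Continuous f → IntegrableOn f P := fun f hf =>
    hf.continuousOn.integrableOn_compact (Metric.isCompact_of_isClosed_isBounded hPc hb)
  have hPpos : 0 < (volume P).toReal := ENNReal.toReal_pos
    (lt_of_lt_of_le (hPo.measure_pos volume ⟨x₀, hx₀⟩) (measure_mono hsub)).ne' hb.measure_lt_top.ne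
  have hp0 : ∀ i, 0 < p i := by
    intro i
    refine div_pos ?_ (hw0 i)
    have havg : (volume P).toReal * ((∑ j, a i j * c j) + β i)
        = ∫ x in P, (∑ j, a i j * x j) + β i := by
      rw [integral_add (hint _ (by fun_prop)) (hint _ continuous_const),
        integral_finsetSum _ fun j _ => hint _ (by fun_prop), setIntegral_const, Measure.real,
        smul_eq_mul, mul_add, Finset.mul_sum]
      congr 1
      refine Finset.sum_congr rfl fun j _ => ?_
      rw [integral_const_mul, hc, centroid]
      field_simp [hPpos.ne']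
    refine pos_of_mul_pos_right ?_ hPpos.le
    rw [havg, setIntegral_congr_set hae, setIntegral_pos_iff_support_of_nonneg_ae
      ((ae_restrict_mem hPo.measurableSet).mono fun x hx => (hx i).le)
      ((hint _ (by fun_prop)).mono_set hsub)]
    refine lt_of_lt_of_le (hPo.measure_pos volume ⟨x₀, hx₀⟩) (measure_mono fun x hx => ⟨?_, hx⟩)
    exact (hx i).ne'
  have hmp : MeasurePreserving (fun y : Fin n → ℝ => y + c) volume volume :=
    measurePreserving_add_right _ c
  have hQb : Bornology.IsBounded (openBody A p) := by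
    obtain ⟨R, hR⟩ := hb.subset_closedBall 0
    refine (Metric.isBounded_closedBall (x := (0 : Fin n → ℝ)) (r := R + ‖c‖)).subset fun y hy => ?_
    rw [hQ] at hy
    have h1 := hR (hsub hy)
    rw [mem_closedBall_zero_iff] at h1 ⊢
    calc ‖y‖ = ‖(y + c) - c‖ := by rw [add_sub_cancel_right]
      _ ≤ ‖y + c‖ + ‖c‖ := norm_sub_le _ _
      _ ≤ _ := by linarith
  have hQint : ∀ f : (Fin n → ℝ) → ℝ,
      ∫ y in openBody A p, f y = ∫ x in P, f (fun l => x l - c l) := by
    intro f
    have h := hmp.setIntegral_preimage_emb (measurableEmbedding_addRight c)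
      (fun x => f (fun l => x l - c l)) P'
    rw [← hQ] at h
    rw [setIntegral_congr_set hae, ← h]
    simp
  have hQvol : (volume (openBody A p)).toReal = (volume P).toReal := by
    rw [hQ, hmp.measure_preimage hPo.measurableSet.nullMeasurableSet, measure_congr hae]
  have hcent : ∀ j, ∫ y in openBody A p, y j = 0 := by
    intro j
    rw [hQint fun y => y j, integral_sub (hint _ (by fun_prop)) (hint _ continuous_const),
      setIntegral_const, Measure.real, smul_eq_mul, hc, centroid]
    field_simp [hPpos.ne']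
    ring
  have hM : secondMoments A p = covMatrix P := by
    ext j l
    simp only [secondMoments, covMatrix, Matrix.of_apply, hQvol]
    rw [hQint fun y => y j * y l]
  have hone : ∀ i, coneFn A p i (Fin.cons (N : ℝ) ((N : ℝ) • (x₀ - c))) = 1 := by
    intro i
    have hN' : (0 : ℝ) < N := by exact_mod_cast hN0
    rw [coneFn_cons hN', inv_smul_smul₀ hN'.ne', hshift, sub_add_cancel, hw]
    field_simp [(hx₀ i).ne']
  obtain ⟨hle, hmain⟩ := core_bound hA hp1 hp0 hQb hcent hone
  refine ⟨hle, ?_⟩
  rw [hQvol, hM] at hmain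
  rw [isoConst, isoConst, simplex_value]
  have hdet0 : 0 ≤ (covMatrix P).det := by
    rw [← hM]
    refine (Matrix.PosSemidef.of_dotProduct_mulVec_nonneg ?_ fun x => ?_).det_nonneg
    · ext j l; simp [secondMoments, mul_comm]
    · have e : star x ⬝ᵥ (secondMoments A p *ᵥ x) = ∑ j, ∑ l, x j * secondMoments A p j l * x l := by
        simp [dotProduct, Matrix.mulVec, Finset.mul_sum, mul_assoc]
      rw [e, quad_secondMoments hQb]
      exact mul_nonneg (by positivity) (setIntegral_nonneg isOpen_openBody.measurableSet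
        fun y _ => sq_nonneg _)
  have hbase : (covMatrix P).det / (volume P).toReal ^ 2
      ≤ Real.exp (((N - (n + 1) : ℕ) : ℝ) * (Real.log (2 * Real.pi) + 1))
        * ((n ! : ℝ) ^ 2 / (((n : ℝ) + 1) ^ (n + 1) * ((n : ℝ) + 2) ^ n)) := by
    rw [div_le_iff₀ (by positivity), mul_div_assoc', div_mul_eq_mul_div, le_div_iff₀ (by positivity)]
    linarith
  refine (Real.rpow_le_rpow (by positivity) hbase (by positivity)).trans (le_of_eq ?_)
  rw [Real.mul_rpow (Real.exp_pos _).le (by positivity), ← Real.exp_mul,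
    Real.rpow_def_of_pos (by positivity : (0 : ℝ) < 2 * Real.pi * Real.exp 1),
    Real.log_mul (by positivity) (Real.exp_ne_zero _), Real.log_exp, Nat.cast_sub hle]
  congr 2
  push_cast
  ring

end Vale.Agent.P254.FewFacets
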