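import Vale.Agent.P254.FewFacets.Cone

/-!
The second moment of a facet function is at most that of an exponential variable in cone coordinates.
-/

noncomputable section

open MeasureTheory Set
open scoped ENNReal Nat

namespace Vale.Agent.P254.FewFacets

variable {n N : ℕ} {A : Fin N → Fin n → ℝ} {p : Fin N → ℝ}

/-- The weight of the part of the cone where one coordinate exceeds a level. -/
def tailWeight (A : Fin N → Fin n → ℝ) (p : Fin N → ℝ) (a : Fin N) (s : ℝ) : ℝ≥0∞ :=
  ∫⁻ z, (openCone A p ∩ {z | s < coneFn A p a z}).indicator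
    (fun z => ENNReal.ofReal (Real.exp (-z 0))) z

lemma tailWeight_set (a : Fin N) (s : ℝ) :
    MeasurableSet (openCone A p ∩ {z | s < coneFn A p a z}) :=
  isOpen_openCone.measurableSet.inter
    (measurableSet_lt measurable_const (continuous_coneFn a).measurable)

lemma tailWeight_logconcave (a : Fin N) {l : ℝ} (h0 : 0 < l) (h1 : l < 1) (s t : ℝ) :
    tailWeight A p a s ^ (1 - l) * tailWeight A p a t ^ l
      ≤ tailWeight A p a ((1 - l) * s + l * t) := by
  have hw : Measurable fun z : Fin (n + 1) → ℝ => ENNReal.ofReal (Real.exp (-z 0)) := by fun_prop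
  refine Vale.Agent.P245.pl_pi h0 h1 (hw.indicator (tailWeight_set a s))
    (hw.indicator (tailWeight_set a t)) (hw.indicator (tailWeight_set a _)) fun x y => ?_
  by_cases hx : x ∈ openCone A p ∩ {z | s < coneFn A p a z}
  swap
  · simp [indicator_of_notMem hx, ENNReal.zero_rpow_of_pos (sub_pos.2 h1)]
  by_cases hy : y ∈ openCone A p ∩ {z | t < coneFn A p a z}
  swap
  · simp [indicator_of_notMem hy, ENNReal.zero_rpow_of_pos h0]
  have hlin : ∀ i, coneFn A p i (fun j => (1 - l) * x j + l * y j)
      = (1 - l) * coneFn A p i x + l * coneFn A p i y := by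
    intro i
    simp only [coneFn, mul_add, Finset.mul_sum, Finset.sum_add_distrib, mul_left_comm (A i _)]
    ring
  have hmem : (fun j => (1 - l) * x j + l * y j)
      ∈ openCone A p ∩ {z | (1 - l) * s + l * t < coneFn A p a z} := by
    refine ⟨fun i => ?_, ?_⟩
    · rw [hlin]
      exact add_pos (mul_pos (sub_pos.2 h1) (hx.1 i)) (mul_pos h0 (hy.1 i))
    · simp only [mem_ofPred_eq, hlin]
      exact add_lt_add (mul_lt_mul_of_pos_left hx.2 (sub_pos.2 h1)) (mul_lt_mul_of_pos_left hy.2 h0)
  rw [indicator_of_mem hx, indicator_of_mem hy, indicator_of_mem hmem,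
    ENNReal.ofReal_rpow_of_pos (Real.exp_pos _), ENNReal.ofReal_rpow_of_pos (Real.exp_pos _),
    ← ENNReal.ofReal_mul (by positivity), ← Real.exp_mul, ← Real.exp_mul, ← Real.exp_add]
  refine le_of_eq ?_
  congr 2
  ring

lemma tailWeight_submul (a : Fin N) {s t : ℝ} (hs : 0 < s) (ht : 0 < t) :
    tailWeight A p a (s + t) * tailWeight A p a 0 ≤ tailWeight A p a s * tailWeight A p a t := by
  set l := s / (s + t) with hl
  have h0 : 0 < l := by positivity
  have h1 : l < 1 := by rw [hl, div_lt_one (by positivity)]; linarith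
  have e1 := tailWeight_logconcave (A := A) (p := p) a h0 h1 0 (s + t)
  have e2 := tailWeight_logconcave (A := A) (p := p) a (l := 1 - l) (by linarith) (by linarith)
    0 (s + t)
  rw [show (1 - l) * 0 + l * (s + t) = s by rw [hl]; field_simp; ring] at e1
  rw [show (1 - (1 - l)) * 0 + (1 - l) * (s + t) = t by rw [hl]; field_simp; ring,
    sub_sub_cancel] at e2
  refine le_trans (le_of_eq ?_) (mul_le_mul' e1 e2)
  have h : ∀ x : ℝ≥0∞, x ^ (1 - l) * x ^ l = x := fun x => by
    rw [← ENNReal.rpow_add_of_nonneg _ _ (by linarith) h0.le, sub_add_cancel, ENNReal.rpow_one]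
  calc tailWeight A p a (s + t) * tailWeight A p a 0
      = (tailWeight A p a (s + t) ^ (1 - l) * tailWeight A p a (s + t) ^ l)
        * (tailWeight A p a 0 ^ (1 - l) * tailWeight A p a 0 ^ l) := by rw [h, h]
    _ = _ := by ring

lemma lintegral_indicator_Ioi (Y : ℝ) :
    ∫⁻ t in Ioi (0 : ℝ), (Iio Y).indicator (fun _ => (1 : ℝ≥0∞)) t = ENNReal.ofReal Y := by
  rw [lintegral_indicator measurableSet_Iio, Measure.restrict_restrict measurableSet_Iio,
    setLIntegral_one, Iio_inter_Ioi, Real.volume_Ioo, sub_zero]

lemma lintegral_tailWeight (a : Fin N) (c : ℝ) :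
    ∫⁻ s in Ioi (0 : ℝ), tailWeight A p a (c + s)
      = ∫⁻ z in openCone A p,
          ENNReal.ofReal (Real.exp (-z 0)) * ENNReal.ofReal (coneFn A p a z - c) := by
  rw [← lintegral_indicator isOpen_openCone.measurableSet]
  simp only [tailWeight]
  rw [lintegral_lintegral_swap]
  · refine lintegral_congr fun z => ?_
    by_cases hz : z ∈ openCone A p
    · rw [indicator_of_mem hz, ← lintegral_indicator_Ioi (coneFn A p a z - c),
        ← lintegral_const_mul' _ _ ENNReal.ofReal_ne_top]
      refine lintegral_congr fun s => ?_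
      by_cases hs : c + s < coneFn A p a z
      · simp [hz, hs, show s < coneFn A p a z - c by linarith]
      · simp [hz, hs, show ¬ s < coneFn A p a z - c by linarith]
    · rw [indicator_of_notMem hz]
      refine (lintegral_congr fun s => ?_).trans lintegral_zero
      exact indicator_of_notMem (fun h => hz h.1) _
  · refine Measurable.aemeasurable ?_
    have hm : MeasurableSet {v : ℝ × (Fin (n + 1) → ℝ) |
        v.2 ∈ openCone A p ∧ c + v.1 < coneFn A p a v.2} :=
      (isOpen_openCone.measurableSet.preimage measurable_snd).inter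
        (measurableSet_lt (measurable_fst.const_add c)
          ((continuous_coneFn a).measurable.comp measurable_snd))
    have h := (show Measurable fun v : ℝ × (Fin (n + 1) → ℝ) =>
      ENNReal.ofReal (Real.exp (-v.2 0)) by fun_prop).indicator hm
    convert h using 1
    funext v
    by_cases hv : v.2 ∈ openCone A p ∧ c + v.1 < coneFn A p a v.2
    · simp only [Function.uncurry_def]
      rw [indicator_of_mem (show v.2 ∈ openCone A p ∩ {z | c + v.1 < coneFn A p a z} from hv),
        indicator_of_mem (show v ∈ {v : ℝ × (Fin (n + 1) → ℝ) |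
          v.2 ∈ openCone A p ∧ c + v.1 < coneFn A p a v.2} from hv)]
    · simp only [Function.uncurry_def]
      rw [indicator_of_notMem (show v.2 ∉ openCone A p ∩ {z | c + v.1 < coneFn A p a z} from hv),
        indicator_of_notMem (show v ∉ {v : ℝ × (Fin (n + 1) → ℝ) |
          v.2 ∈ openCone A p ∧ c + v.1 < coneFn A p a v.2} from hv)]

lemma lintegral_half_sq {Y : ℝ} (hY : 0 ≤ Y) :
    ∫⁻ s in Ioi (0 : ℝ), ENNReal.ofReal (Y - s) = ENNReal.ofReal (Y ^ 2 / 2) := by
  have e : ∫⁻ s in Ioi (0 : ℝ), ENNReal.ofReal (Y - s)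
      = ∫⁻ s in Ioc 0 Y, ENNReal.ofReal (Y - s) := by
    rw [← lintegral_indicator measurableSet_Ioi, ← lintegral_indicator measurableSet_Ioc]
    refine lintegral_congr fun s => ?_
    by_cases h0 : 0 < s
    · by_cases h1 : s ≤ Y
      · simp [h0, h1]
      · simp [h0, h1, ENNReal.ofReal_of_nonpos (by linarith : Y - s ≤ 0)]
    · simp [h0]
  have hint : IntegrableOn (fun s : ℝ => Y - s) (Ioc 0 Y) :=
    ((by fun_prop : Continuous fun s : ℝ => Y - s).intervalIntegrable 0 Y).1
  rw [e, ← ofReal_integral_eq_lintegral_ofReal hint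
    ((ae_restrict_mem measurableSet_Ioc).mono fun s hs => sub_nonneg.2 hs.2),
    ← intervalIntegral.integral_of_le hY, intervalIntegral.integral_comp_sub_left (fun u => u) Y,
    integral_id]
  congr 1
  ring

lemma tail_second_moment (a : Fin N) :
    (∫⁻ z in openCone A p, ENNReal.ofReal (Real.exp (-z 0)) * ENNReal.ofReal (coneFn A p a z ^ 2 / 2))
      * tailWeight A p a 0
      ≤ (∫⁻ z in openCone A p, ENNReal.ofReal (Real.exp (-z 0)) * ENNReal.ofReal (coneFn A p a z))
        * ∫⁻ z in openCone A p, ENNReal.ofReal (Real.exp (-z 0)) * ENNReal.ofReal (coneFn A p a z) := by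
  have hG : Measurable (tailWeight A p a) :=
    (show Antitone (tailWeight A p a) from fun s t hst => lintegral_mono fun z =>
      indicator_le_indicator_of_subset
        (inter_subset_inter_right _ fun w (hw : t < _) => lt_of_le_of_lt hst hw)
        (fun _ => zero_le) z).measurable
  have h1 := lintegral_tailWeight (A := A) (p := p) a 0
  simp only [zero_add, sub_zero] at h1
  have h2 : ∫⁻ c in Ioi (0 : ℝ), ∫⁻ s in Ioi (0 : ℝ), tailWeight A p a (c + s)
      = ∫⁻ z in openCone A p,
          ENNReal.ofReal (Real.exp (-z 0)) * ENNReal.ofReal (coneFn A p a z ^ 2 / 2) := by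
    simp only [lintegral_tailWeight]
    rw [lintegral_lintegral_swap]
    · refine setLIntegral_congr_fun isOpen_openCone.measurableSet fun z hz => ?_
      simp only [lintegral_const_mul' _ _ ENNReal.ofReal_ne_top, lintegral_half_sq (le_of_lt (hz a))]
    · have := (continuous_coneFn (A := A) (p := p) a).measurable
      refine Measurable.aemeasurable ?_
      simp only [Function.uncurry_def]
      fun_prop
  have hinner : Measurable fun c => ∫⁻ s in Ioi (0 : ℝ), tailWeight A p a (c + s) :=
    Measurable.lintegral_prod_right' (f := fun v : ℝ × ℝ => tailWeight A p a (v.1 + v.2))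
      (hG.comp (measurable_fst.add measurable_snd))
  rw [← h2, ← h1, ← lintegral_mul_const _ hinner, ← lintegral_mul_const _ hG]
  refine setLIntegral_mono' measurableSet_Ioi fun c hc => ?_
  rw [← lintegral_mul_const _ (show Measurable fun s => tailWeight A p a (c + s) from
      hG.comp (measurable_const.add measurable_id)),
    ← lintegral_const_mul _ hG]
  exact setLIntegral_mono' measurableSet_Ioi fun s hs => tailWeight_submul a hc hs

lemma tailWeight_zero (a : Fin N) :
    tailWeight A p a 0 = ∫⁻ z in openCone A p, ENNReal.ofReal (Real.exp (-z 0)) := by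
  rw [tailWeight, inter_eq_left.2 (show openCone A p ⊆ {z | 0 < coneFn A p a z} from fun z hz => hz a),
    lintegral_indicator isOpen_openCone.measurableSet]

lemma facet_second_moment (hA : ∀ j, ∑ i, A i j = 0) (hp : ∑ i, p i = 1)
    (hb : Bornology.IsBounded (openBody A p)) (a : Fin N) :
    ((n : ℝ) + 2) * (volume (openBody A p)).toReal * (∫ y in openBody A p, facetFn A p a y ^ 2)
      ≤ 2 * ((n : ℝ) + 1) * (∫ y in openBody A p, facetFn A p a y) ^ 2 := by
  have hQ := (isOpen_openBody (A := A) (p := p)).measurableSet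
  have hC := (isOpen_openCone (A := A) (p := p)).measurableSet
  have hint : ∀ q : ℕ, IntegrableOn (fun y => facetFn A p a y ^ q) (openBody A p) := fun q =>
    (((continuous_facetFn a).pow q).continuousOn.integrableOn_compact
      hb.isCompact_closure).mono_set subset_closure
  have key : ∀ q : ℕ, ∫⁻ z in openCone A p,
      ENNReal.ofReal (Real.exp (-z 0)) * ENNReal.ofReal (coneFn A p a z ^ q)
      = ENNReal.ofReal (((n + q) ! : ℝ) * ∫ y in openBody A p, facetFn A p a y ^ q) := by
    intro q
    rw [ENNReal.ofReal_mul (by positivity), ofReal_integral_eq_lintegral_ofReal (hint q)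
      ((ae_restrict_mem hQ).mono fun y hy => pow_nonneg (le_of_lt (hy a)) q),
      ← lintegral_openCone hA hp q (((continuous_facetFn a).measurable.pow_const q).ennreal_ofReal)]
    refine setLIntegral_congr_fun hC fun z hz => ?_
    have hz0 := openCone_zero_pos hA hp hz
    have e : coneFn A p a z = z 0 * facetFn A p a ((z 0)⁻¹ • Fin.tail z) := by
      conv_lhs => rw [← Fin.cons_self_tail z]
      exact coneFn_cons hz0 _ a
    simp only [e, mul_pow]
    rw [ENNReal.ofReal_mul (pow_nonneg hz0.le q), ENNReal.ofReal_mul (Real.exp_pos _).le, mul_assoc]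
  have h := tail_second_moment (A := A) (p := p) a
  have k1 := key 1
  have k2 := key 2
  have k0 := key 0
  simp only [pow_one] at k1
  simp only [pow_zero, ENNReal.ofReal_one, mul_one, setIntegral_const, smul_eq_mul,
    add_zero] at k0
  have e2 : ∫⁻ z in openCone A p,
      ENNReal.ofReal (Real.exp (-z 0)) * ENNReal.ofReal (coneFn A p a z ^ 2 / 2)
      = ENNReal.ofReal (((n + 2) ! : ℝ) * (∫ y in openBody A p, facetFn A p a y ^ 2) / 2) := by
    rw [div_eq_mul_inv _ (2 : ℝ), ENNReal.ofReal_mul (mul_nonneg (by positivity)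
      (setIntegral_nonneg hQ fun y _ => sq_nonneg _)), ← k2,
      ← lintegral_mul_const' _ _ ENNReal.ofReal_ne_top]
    refine lintegral_congr fun z => ?_
    rw [div_eq_mul_inv, ENNReal.ofReal_mul (sq_nonneg _), mul_assoc]
  rw [tailWeight_zero, e2, k0, k1, Measure.real] at h
  have i1 : 0 ≤ ∫ y in openBody A p, facetFn A p a y := setIntegral_nonneg hQ fun y hy => (hy a).le
  have i2 : 0 ≤ ∫ y in openBody A p, facetFn A p a y ^ 2 :=
    setIntegral_nonneg hQ fun y _ => sq_nonneg _
  rw [← ENNReal.ofReal_mul (by positivity), ← ENNReal.ofReal_mul (by positivity),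
    ENNReal.ofReal_le_ofReal_iff (by positivity)] at h
  rw [Nat.factorial_succ, Nat.factorial_succ (n := n)] at h
  push_cast at h
  refine le_of_mul_le_mul_left ?_ (show (0 : ℝ) < (n ! : ℝ) ^ 2 * ((n : ℝ) + 1) / 2 by positivity)
  calc (n ! : ℝ) ^ 2 * ((n : ℝ) + 1) / 2
        * (((n : ℝ) + 2) * (volume (openBody A p)).toReal * ∫ y in openBody A p, facetFn A p a y ^ 2)
      ≤ _ := le_trans (le_of_eq (by ring)) h
    _ = _ := by ring

end Vale.Agent.P254.FewFacets
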