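import Vale.Agent.P245.PL
import Vale.Agent.P254.FewFacets.Complete

/-!
The mass of a linear section of the product exponential density through its mean.
-/

noncomputable section

open MeasureTheory Set Matrix
open scoped ENNReal

namespace Vale.Agent.P254.FewFacets

variable {N m k : ℕ}

/-- The one-sided exponential density. -/
def expOne (x : ℝ) : ℝ := (Ioi (0 : ℝ)).indicator (fun x => Real.exp (-x)) x

/-- The product exponential density. -/
def expProd (y : Fin N → ℝ) : ℝ := ∏ i, expOne (y i)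

lemma expOne_nonneg (x : ℝ) : 0 ≤ expOne x := indicator_nonneg (fun _ _ => (Real.exp_pos _).le) x

lemma expProd_nonneg (y : Fin N → ℝ) : 0 ≤ expProd y := Finset.prod_nonneg fun i _ => expOne_nonneg _

lemma expProd_of_pos {y : Fin N → ℝ} (h : ∀ i, 0 < y i) : expProd y = Real.exp (-∑ i, y i) := by
  simp only [expProd, expOne, indicator_of_mem (mem_Ioi.2 (h _)), ← Real.exp_sum,
    Finset.sum_neg_distrib]

lemma expProd_of_not_pos {y : Fin N → ℝ} (h : ¬ ∀ i, 0 < y i) : expProd y = 0 := by
  push Not at h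
  obtain ⟨i, hi⟩ := h
  exact Finset.prod_eq_zero (Finset.mem_univ i) (indicator_of_notMem (by simpa using hi) _)

lemma measurable_expProd : Measurable (expProd (N := N)) := by
  refine Finset.measurable_prod _ fun i _ => ?_
  exact ((by fun_prop : Measurable fun x : ℝ => Real.exp (-x)).indicator measurableSet_Ioi).comp
    (measurable_pi_apply i)

lemma expOne_pow (q : ℕ) :
    Integrable (fun x => expOne x * x ^ q) ∧ ∫ x, expOne x * x ^ q = (q.factorial : ℝ) := by
  have he : EqOn (fun t : ℝ => Real.exp (-t) * t ^ (((q : ℝ) + 1) - 1))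
      (fun t : ℝ => Real.exp (-t) * t ^ q) (Ioi 0) := fun t _ => by simp
  have e : (fun x => expOne x * x ^ q)
      = (Ioi (0 : ℝ)).indicator fun t => Real.exp (-t) * t ^ q := by
    funext x
    by_cases hx : x ∈ Ioi (0 : ℝ)
    · simp only [expOne, indicator_of_mem hx]
    · simp only [expOne, indicator_of_notMem hx, zero_mul]
  rw [e]
  refine ⟨?_, ?_⟩
  · exact (integrable_indicator_iff measurableSet_Ioi).2
      ((Real.GammaIntegral_convergent (s := (q : ℝ) + 1) (by positivity)).congr_fun he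
        measurableSet_Ioi)
  · rw [integral_indicator measurableSet_Ioi, ← Real.Gamma_nat_eq_factorial,
      Real.Gamma_eq_integral (by positivity), setIntegral_congr_fun measurableSet_Ioi he]

lemma expOne_moments :
    (Integrable expOne ∧ ∫ x, expOne x = 1) ∧
    (Integrable (fun x => expOne x * (x - 1)) ∧ ∫ x, expOne x * (x - 1) = 0) ∧
    (Integrable (fun x => expOne x * (x - 1) ^ 2) ∧ ∫ x, expOne x * (x - 1) ^ 2 = 1) := by
  obtain ⟨i0, v0⟩ := expOne_pow 0
  obtain ⟨i1, v1⟩ := expOne_pow 1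
  obtain ⟨i2, v2⟩ := expOne_pow 2
  simp only [pow_zero, mul_one, Nat.factorial_zero, Nat.cast_one] at i0 v0
  simp only [pow_one, Nat.factorial_one, Nat.cast_one] at i1 v1
  have e1 : (fun x => expOne x * (x - 1)) = fun x => expOne x * x - expOne x := by
    funext x; ring
  have e2 : (fun x => expOne x * (x - 1) ^ 2)
      = fun x => (expOne x * x ^ 2 - 2 * (expOne x * x)) + expOne x := by
    funext x; ring
  refine ⟨⟨i0, v0⟩, ⟨?_, ?_⟩, ?_, ?_⟩
  · rw [e1]; exact i1.sub i0
  · rw [e1, integral_sub i1 i0, v1, v0, sub_self]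
  · rw [e2]; exact (i2.sub (i1.const_mul 2)).add i0
  · have i12 : Integrable fun x => expOne x * x ^ 2 - 2 * (expOne x * x) := i2.sub (i1.const_mul 2)
    rw [e2, integral_add i12 i0, integral_sub i2 (i1.const_mul 2), integral_const_mul, v2, v1, v0]
    norm_num [Nat.factorial]

lemma expProd_poly (q : Fin N → ℕ) (hq : ∀ i, q i ≤ 2) :
    Integrable (fun y : Fin N → ℝ => expProd y * ∏ i, (y i - 1) ^ q i) ∧
      ∫ y : Fin N → ℝ, expProd y * ∏ i, (y i - 1) ^ q i = ∏ i, if q i = 1 then 0 else 1 := by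
  obtain ⟨⟨i0, v0⟩, ⟨i1, v1⟩, ⟨i2, v2⟩⟩ := expOne_moments
  have e : (fun y : Fin N → ℝ => expProd y * ∏ i, (y i - 1) ^ q i)
      = fun y => ∏ i, expOne (y i) * (y i - 1) ^ q i := by
    funext y; rw [expProd, Finset.prod_mul_distrib]
  have h : ∀ i, Integrable (fun x => expOne x * (x - 1) ^ q i) ∧
      ∫ x, expOne x * (x - 1) ^ q i = if q i = 1 then 0 else 1 := by
    intro i
    have := hq i
    interval_cases q i
    · simp [i0, v0]
    · simp [i1, v1]
    · simp [i2, v2]
  rw [e]
  refine ⟨Integrable.fintype_prod fun i => (h i).1, ?_⟩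
  rw [integral_fintype_prod_volume_eq_prod (fun i x => expOne x * (x - 1) ^ q i)]
  exact Finset.prod_congr rfl fun i _ => (h i).2

lemma expProd_moments :
    (Integrable (expProd (N := N)) ∧ ∫ y : Fin N → ℝ, expProd y = 1) ∧
    (∀ i : Fin N, Integrable (fun y => expProd y * (y i - 1)) ∧
      ∫ y : Fin N → ℝ, expProd y * (y i - 1) = 0) ∧
    ∀ i l : Fin N, Integrable (fun y => expProd y * ((y i - 1) * (y l - 1))) ∧
      ∫ y : Fin N → ℝ, expProd y * ((y i - 1) * (y l - 1)) = if i = l then 1 else 0 := by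
  classical
  refine ⟨?_, fun i => ?_, fun i l => ?_⟩
  · simpa using expProd_poly (N := N) (fun _ => 0) fun _ => by norm_num
  · have h := expProd_poly (N := N) (fun j => if j = i then 1 else 0)
      fun j => by split <;> norm_num
    simpa [pow_ite, Finset.prod_ite_eq', Finset.prod_eq_zero (Finset.mem_univ i)] using h
  · have h := expProd_poly (N := N)
      (fun j => (if j = i then 1 else 0) + if j = l then 1 else 0)
      fun j => by split <;> split <;> norm_num
    have e : ∀ y : Fin N → ℝ,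
        ∏ j, (y j - 1) ^ ((if j = i then 1 else 0) + if j = l then 1 else 0 : ℕ)
          = (y i - 1) * (y l - 1) := by
      intro y
      simp only [pow_add, Finset.prod_mul_distrib]
      simp [pow_ite, Finset.prod_ite_eq']
    simp only [e] at h
    refine ⟨h.1, h.2.trans ?_⟩
    by_cases hil : i = l
    · subst hil
      rw [if_pos rfl]
      exact Finset.prod_eq_one fun j _ => by by_cases hj : j = i <;> simp [hj]
    · rw [if_neg hil]
      exact Finset.prod_eq_zero (Finset.mem_univ i) (by simp [hil])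

/-- The standard Gaussian density. -/
def gaussDensity (s : Fin k → ℝ) : ℝ :=
  Real.exp (-(k : ℝ) / 2 * Real.log (2 * Real.pi) - (∑ j, s j ^ 2) / 2)

lemma gaussDensity_mass : Integrable (gaussDensity (k := k)) ∧ ∫ s, gaussDensity (k := k) s = 1 := by
  set c := -(k : ℝ) / 2 * Real.log (2 * Real.pi) with hc
  have e : gaussDensity (k := k) = fun s => Real.exp c * ∏ j, Real.exp (-(1 / 2) * s j ^ 2) := by
    funext s
    rw [gaussDensity, ← hc, ← Real.exp_sum, ← Real.exp_add, sub_eq_add_neg]
    congr 2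
    rw [← Finset.mul_sum]
    ring
  rw [e]
  refine ⟨(Integrable.fintype_prod fun _ => integrable_exp_neg_mul_sq (by norm_num)).const_mul _, ?_⟩
  have hpi : 0 < 2 * Real.pi := by positivity
  rw [integral_const_mul, integral_fintype_prod_volume_eq_pow (fun x : ℝ => Real.exp (-(1 / 2) * x ^ 2)),
    integral_gaussian, Fintype.card_fin, show Real.pi / (1 / 2) = 2 * Real.pi by ring,
    Real.sqrt_eq_rpow, ← Real.rpow_natCast, ← Real.rpow_mul hpi.le, Real.rpow_def_of_pos hpi,
    ← Real.exp_add, hc, Real.exp_eq_one_iff]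
  ring

/-- The supporting affine majorant of a concave function on an open convex set. -/
lemma concave_majorant {S : Set (Fin k → ℝ)} {φ : (Fin k → ℝ) → ℝ} (hS : IsOpen S)
    (hφ : ConcaveOn ℝ S φ) (h0 : 0 ∈ S) :
    ∃ w : Fin k → ℝ, ∀ s ∈ S, φ s ≤ φ 0 + ∑ j, w j * s j := by
  have hcont : ContinuousOn φ S := hφ.continuousOn hS
  set U := {x : (Fin k → ℝ) × ℝ | x.1 ∈ S ∧ x.2 < φ x.1} with hU
  have hUc : Convex ℝ U := hφ.convex_strict_hypograph
  have hUo : IsOpen U := by
    have h : ContinuousOn (fun x : (Fin k → ℝ) × ℝ => φ x.1 - x.2) (S ×ˢ univ) :=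
      (hcont.comp continuous_fst.continuousOn fun x hx => hx.1).sub continuous_snd.continuousOn
    have h2 := h.isOpen_inter_preimage (hS.prod isOpen_univ) (isOpen_Ioi (a := (0 : ℝ)))
    convert h2 using 1
    ext x
    simp [hU, sub_pos]
  obtain ⟨f, hf⟩ := geometric_hahn_banach_open_point hUc hUo
    (x := ((0 : Fin k → ℝ), φ 0)) (fun h => lt_irrefl _ h.2)
  set c := f ((0 : Fin k → ℝ), (1 : ℝ)) with hc
  have hsplit : ∀ (s : Fin k → ℝ) (r : ℝ), f (s, r) = f (s, 0) + r * c := by
    intro s r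
    rw [hc, ← smul_eq_mul, ← map_smul, ← map_add]
    congr 1
    simp
  have hf0 : f ((0 : Fin k → ℝ), (0 : ℝ)) = 0 := by rw [Prod.mk_zero_zero]; exact map_zero f
  have hc0 : 0 < c := by
    have h := hf ((0 : Fin k → ℝ), φ 0 - 1) ⟨h0, by simp⟩
    rw [hsplit, hsplit 0 (φ 0)] at h
    linarith
  refine ⟨fun j => -(f (Pi.single j 1, 0)) / c, fun s hs => ?_⟩
  have hlin : ∑ j, -(f (Pi.single j 1, 0)) / c * s j = -(f (s, 0)) / c := by
    have : f (s, 0) = ∑ j, s j * f (Pi.single j 1, 0) := by
      calc f (s, 0) = (f.comp (ContinuousLinearMap.inl ℝ _ ℝ)) s := by simp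
        _ = _ := by
          conv_lhs => rw [pi_eq_sum_univ' s]
          rw [map_sum]
          simp
    rw [this, neg_div, Finset.sum_div, ← Finset.sum_neg_distrib]
    exact Finset.sum_congr rfl fun j _ => by ring
  rw [hlin]
  refine le_of_forall_lt fun r hr => ?_
  have h := hf (s, r) ⟨hs, hr⟩
  rw [hsplit, hsplit 0 (φ 0), hf0, zero_add] at h
  rw [neg_div, ← sub_eq_add_neg, lt_sub_iff_add_lt, ← lt_sub_iff_add_lt', div_lt_iff₀ hc0]
  linarith

lemma sub_le_mul_of_log {g G a : ℝ} (hg : 0 ≤ g) (hG : 0 < G)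
    (ha : 0 < g → Real.log g - Real.log G ≤ a) : g - G ≤ g * a := by
  rcases hg.eq_or_lt with rfl | hg'
  · linarith
  have h1 := Real.log_le_sub_one_of_pos (div_pos hG hg')
  rw [Real.log_div hG.ne' hg'.ne', le_sub_iff_add_le, le_div_iff₀ hg'] at h1
  nlinarith [mul_le_mul_of_nonneg_left (ha hg') hg]

/-- A log-concave density with mean zero and total variance `k` is large at zero. -/
lemma center_bound {g : (Fin k → ℝ) → ℝ} {S : Set (Fin k → ℝ)} (hS : IsOpen S) (h0 : 0 ∈ S)
    (hg0 : ∀ s, 0 ≤ g s) (hpos : ∀ s, 0 < g s → s ∈ S)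
    (hlog : ConcaveOn ℝ S fun s => Real.log (g s)) (hS0 : 0 < g 0)
    (hi : Integrable g) (hv : ∫ s, g s = 1)
    (hi1 : ∀ j, Integrable fun s => g s * s j) (hv1 : ∀ j, ∫ s, g s * s j = 0)
    (hi2 : Integrable fun s => g s * ∑ j, s j ^ 2) (hv2 : ∫ s, g s * ∑ j, s j ^ 2 = k) :
    Real.exp (-(k : ℝ) / 2 * (Real.log (2 * Real.pi) + 1)) ≤ g 0 := by
  obtain ⟨w, hw⟩ := concave_majorant hS hlog h0
  obtain ⟨hG, hGv⟩ := gaussDensity_mass (k := k)
  set c := Real.log (g 0) + (k : ℝ) / 2 * Real.log (2 * Real.pi) with hc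
  have hpt : ∀ s, g s - gaussDensity s
      ≤ c * g s + ∑ j, w j * (g s * s j) + (1 / 2) * (g s * ∑ j, s j ^ 2) := by
    intro s
    have h := sub_le_mul_of_log (hg0 s) (G := gaussDensity s) (Real.exp_pos _)
      (a := c + ∑ j, w j * s j + (∑ j, s j ^ 2) / 2) fun hs => by
      rw [gaussDensity, Real.log_exp, hc]
      have := hw s (hpos s hs)
      linarith
    refine h.trans (le_of_eq ?_)
    rw [mul_add, mul_add, Finset.mul_sum]
    congr 1
    · congr 1
      · ring
      · exact Finset.sum_congr rfl fun j _ => by ring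
    · ring
  have iA : Integrable fun s => c * g s := hi.const_mul c
  have iB : Integrable fun s => ∑ j, w j * (g s * s j) :=
    integrable_finsetSum _ fun j _ => (hi1 j).const_mul _
  have iC : Integrable fun s => (1 / 2 : ℝ) * (g s * ∑ j, s j ^ 2) := hi2.const_mul _
  have iAB : Integrable fun s => c * g s + ∑ j, w j * (g s * s j) := iA.add iB
  have iABC : Integrable fun s =>
      c * g s + ∑ j, w j * (g s * s j) + (1 / 2 : ℝ) * (g s * ∑ j, s j ^ 2) := iAB.add iC
  have h := integral_mono (hi.sub hG) iABC hpt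
  rw [integral_sub' hi hG, hv, hGv, integral_add iAB iC, integral_add iA iB, integral_const_mul,
    integral_const_mul, integral_finsetSum _ (fun j _ => (hi1 j).const_mul _), hv, hv2] at h
  simp only [integral_const_mul, hv1, mul_zero, Finset.sum_const_zero] at h
  rw [← Real.exp_log hS0, Real.exp_le_exp]
  rw [hc] at h
  linarith

end Vale.Agent.P254.FewFacets
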